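import Vale.Agent.P219.Flat.PairRows
import Vale.Agent.P219.Relax.Profile
import Vale.Agent.P219.Bend.Min
import Vale.Agent.P219.Gen.Defs

/-!
# P219: relaxed certificates give the sharp Euclidean inequality

The profile is the Euclidean one times `l < 1`, so the row is exact at every volume with the mean
curvature of the sphere of radius `t / l`.
-/

noncomputable section

open MeasureTheory Set Filter Topology Matrix
open scoped ENNReal

namespace Vale.Agent.P219.CH.Flat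

open Gen (mass radial cmean cmean_nonneg scaled conorm_dirCov_le dirCov)
open Relax (row_exact supports_model rowIntegS)

variable {n : ℕ}

lemma modelRad_flat (hn : 1 ≤ n) {q : ℝ} (hq : 0 ≤ q) : Bend.modelRad n 0 q ^ n = q := by
  have h := (Bend.modelRad_spec hn 0 hq).2
  rwa [Bend.modelVol_flat hn] at h

lemma modelProfile_flat (n : ℕ) (l V : ℝ) :
    Bend.modelProfile n 0 l V =
      l * (Bend.unitBall n * ((n : ℝ) * Bend.modelRad n 0 (V / Bend.unitBall n) ^ (n - 1))) := by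
  rw [Bend.modelProfile, Bend.modelArea_flat]

lemma modelSlope_flat (n : ℕ) (l V : ℝ) :
    Bend.modelSlope n 0 l V =
      l * (((n : ℝ) - 1) / Bend.modelRad n 0 (V / Bend.unitBall n)) := by
  simp [Bend.modelSlope, sn_flat]

/-- Almost minimisers below the profile have no volume near any given one. -/
theorem eventually_avoid [NeZero n] (hn : 2 ≤ n) {a : ℝ → ℝ} {β : ℝ} (hcert : Cert n a β)
    {G : (Fin n → ℝ) → Matrix (Fin n) (Fin n) ℝ} {D : (Fin n → ℝ) → (Fin n → ℝ) → ℝ}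
    (h : IsCH G D) {l : ℝ} (hl : 0 < l) (hl1 : l < 1)
    {o : Fin n → ℝ} {R P₀ v₀ M : ℝ} (hP₀ : 0 ≤ P₀) (hv₀ : 0 < v₀) (hM : 0 ≤ M)
    {Vt : ℝ} (hVt : 0 < Vt) :
    ∃ U ∈ 𝓝 Vt, ∀ᶠ δ in 𝓝[>] (0 : ℝ), ∀ u,
      Bend.NearMinP G D o R P₀ v₀ (Bend.modelProfile n 0 l) M δ u →
      per G u ≤ Bend.modelProfile n 0 l (vol G u) → vol G u ∉ U := by
  have hn1 : 1 ≤ n := by omega
  have hΦ : Bend.IsProfile (Bend.modelProfile n 0 l) (Bend.modelSlope n 0 l) :=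
    Bend.modelPin n hn 0 l le_rfl hl
  have hsup := supports_model hn (le_refl (0 : ℝ)) hl
  obtain ⟨e, he⟩ := Six.exists_isExp h
  obtain ⟨hm0, hmrad, -⟩ := Gen.momentPin n hn
  obtain ⟨Mm, hMm⟩ : ∃ Mm, Mm = mass n := ⟨_, rfl⟩
  obtain ⟨Rd, hRd⟩ : ∃ Rd, Rd = radial n := ⟨_, rfl⟩
  obtain ⟨ω, hω⟩ : ∃ ω, ω = Bend.unitBall n := ⟨_, rfl⟩
  rw [← hMm, ← hω, ← hRd] at hmrad
  have hω0 : 0 < ω := hω ▸ Bend.unitBall_pos hn1
  have hM0 : 0 < Mm := hMm ▸ hm0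
  have hRd1 : 0 < Rd := by
    refine lt_of_le_of_ne (hRd ▸ setIntegral_nonneg measurableSet_Ioi fun r hr =>
      mul_nonneg (pow_nonneg (le_of_lt hr) _) (Real.exp_pos _).le) fun h0 => ?_
    rw [← h0, mul_zero] at hmrad
    linarith
  have hn0 : (0 : ℝ) < n := by exact_mod_cast hn1
  obtain ⟨t, ht⟩ : ∃ t, t = Bend.modelRad n 0 (Vt / ω) := ⟨_, rfl⟩
  have ht0 : 0 < t := ht ▸ Bend.modelRad_pos hn1 0 (div_pos hVt hω0)
  have hVte : ω * t ^ n = Vt := by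
    rw [ht, modelRad_flat hn1 (div_nonneg hVt.le hω0.le), mul_div_cancel₀ _ hω0.ne']
  obtain ⟨s, hsd⟩ : ∃ s, s = l / t := ⟨_, rfl⟩
  have hs : 0 < s := hsd ▸ div_pos hl ht0
  have hH : ((n : ℝ) - 1) * s = Bend.modelSlope n 0 l Vt := by
    rw [modelSlope_flat, ← hω, ← ht, hsd]
    ring
  obtain ⟨Φt, hΦt⟩ : ∃ z, z = Bend.modelProfile n 0 l Vt := ⟨_, rfl⟩
  have eΦ : Φt = l * (ω * ((n : ℝ) * t ^ (n - 1))) := by
    rw [hΦt, modelProfile_flat, ← hω, ← ht]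
  have hΦt0 : 0 < Φt := eΦ ▸ by positivity
  obtain ⟨E, hE⟩ : ∃ E, E = cmean n fun c => -a c := ⟨_, rfl⟩
  have hE0 : 0 ≤ E := hE ▸ cmean_nonneg hm0 fun c hc => by linarith [hcert.a_nonpos c hc]
  have hv := hcert.value
  rw [← hE] at hv
  obtain ⟨bk, hbk⟩ : ∃ bk, bk = s ^ (n - 1) := ⟨_, rfl⟩
  have hbk0 : 0 < bk := hbk ▸ pow_pos hs _
  have e1 : s * Vt = Φt / n := by
    rw [eΦ, hsd, ← hVte, show t ^ n = t * t ^ (n - 1) by rw [← pow_succ', Nat.sub_add_cancel hn1]]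
    field_simp
  have e2 : bk * Φt = l ^ n * ω * n := by
    rw [eΦ, hbk, hsd, div_pow, show l ^ n = l * l ^ (n - 1) by
      rw [← pow_succ', Nat.sub_add_cancel hn1]]
    field_simp
  obtain ⟨f, hf⟩ : ∃ f : ℝ → ℝ, f = fun x => 2 * Mm * (x + E) * (Φt + x) +
      Rd * bk * ((2 + 2 * x) * (Φt + x) ^ 2 + 2 * x * (Φt + x)) -
      2 * Mm * β * s * (1 - x) ^ 2 * (Vt - 2 * x) := ⟨_, rfl⟩
  have hf0 : f 0 < 0 := by
    have e3 : f 0 = 2 * Mm * Φt * (l ^ n - 1) := by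
      calc f 0 = 2 * Mm * E * Φt + 2 * Rd * (bk * Φt) * Φt - 2 * Mm * β * (s * Vt) := by
            rw [hf]; ring
        _ = 2 * Φt * ((E - β / n) * Mm + l ^ n * (n * ω * Rd)) := by rw [e1, e2]; ring
        _ = _ := by rw [← hmrad, hv]; ring
    rw [e3]
    exact mul_neg_of_pos_of_neg (by positivity)
      (sub_neg.2 (pow_lt_one₀ hl.le hl1 (by omega)))
  have hfc : Continuous f := hf ▸ by fun_prop
  obtain ⟨x, ⟨hx0, hfx⟩, hx1⟩ : ∃ x, (0 < x ∧ f x < 0) ∧ x < 1 :=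
    (((eventually_nhdsWithin_of_forall fun x (hx : x ∈ Ioi (0 : ℝ)) => hx).and
      (((hfc.tendsto 0).eventually_lt_const hf0).filter_mono nhdsWithin_le_nhds)).and
      ((eventually_lt_nhds (show (0 : ℝ) < 1 by norm_num)).filter_mono
        (nhdsWithin_le_nhds (s := Ioi (0 : ℝ))))).exists
  have hK := h.proper o R
  obtain ⟨B, hB⟩ := (hK.prod hK).bddAbove_image h.continuous_D.continuousOn
  obtain ⟨T, hT⟩ : ∃ T : ℝ, T = s * Real.sqrt (2 * max B 0) + 1 := ⟨_, rfl⟩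
  have hT0 : 0 < T := by rw [hT]; positivity
  obtain ⟨w, hw, hwpos, hwG, hwL⟩ := hcert.weight x T hx0 hT0
  have hws : ContDiff ℝ 1 (scaled w s) :=
    hw.comp (by fun_prop : ContDiff ℝ 1 fun z : ℝ × ℝ => (s ^ 2 * z.1, s * z.2))
  have hwspos : ∀ p q, 0 ≤ p → q ^ 2 ≤ 2 * p → 0 < scaled w s (p, q) := fun p q hp hq =>
    hwpos _ _ (by positivity) (by
      calc (s * q) ^ 2 = s ^ 2 * q ^ 2 := mul_pow s q 2
        _ ≤ s ^ 2 * (2 * p) := by gcongr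
        _ = _ := by ring)
  have hwc : Continuous fun q : ℝ × ℝ => q.1 / s * w (q.1 ^ 2 / 2, q.1 * q.2) :=
    (continuous_fst.div_const s).mul (hw.continuous.comp
      (((continuous_fst.pow 2).div_const 2).prodMk (continuous_fst.mul continuous_snd)))
  obtain ⟨C, hC'⟩ := ((isCompact_Icc (a := (0 : ℝ)) (b := T)).prod
    (isCompact_Icc (a := (-1 : ℝ)) (b := 1))).exists_bound_of_continuousOn hwc.continuousOn
  obtain ⟨C₀, hC₀⟩ : ∃ C₀, C₀ = max C 0 := ⟨_, rfl⟩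
  have hC₀0 : 0 ≤ C₀ := hC₀ ▸ le_max_right _ _
  have hcΦ : ContinuousAt (Bend.modelProfile n 0 l) Vt :=
    hΦ.cont.continuousAt (Ici_mem_nhds hVt)
  have hch : ContinuousAt
      (fun V => |Bend.modelSlope n 0 l V - ((n : ℝ) - 1) * s| * (C₀ * P₀)) Vt :=
    (((hΦ.cont_slope.continuousAt (Ioi_mem_nhds hVt)).sub continuousAt_const).abs).mul
      continuousAt_const
  refine ⟨{V | Bend.modelProfile n 0 l V < Φt + x ∧ Vt - x < V ∧
      |Bend.modelSlope n 0 l V - ((n : ℝ) - 1) * s| * (C₀ * P₀) < x / 2}, ?_, ?_⟩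
  · exact inter_mem (hcΦ.eventually_lt_const (hΦt ▸ lt_add_of_pos_right _ hx0))
      (inter_mem (Ioi_mem_nhds (by linarith))
        (hch.eventually_lt_const (by simp [← hH, half_pos hx0])))
  filter_upwards [row_exact h (by omega) o (R := R) hP₀ hv₀ hΦ hsup hM (half_pos hx0) hws hwspos,
    (eventually_le_nhds (by positivity : (0 : ℝ) < x * x)).filter_mono nhdsWithin_le_nhds]
    with δ hrow hδ
  rintro u hnear hPΦ ⟨hUΦ, hUV, hUh⟩
  obtain ⟨hu, hPu, -, hgu, -⟩ := id hnear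
  have hTb : ∀ x y, D o x ≤ R → D o y ≤ R → s * Real.sqrt (2 * D x y) ≤ T := fun x y hx hy => by
    rw [hT]
    have := (hB ⟨(x, y), ⟨hx, hy⟩, rfl⟩).trans (le_max_left B 0)
    exact (mul_le_mul_of_nonneg_left (Real.sqrt_le_sqrt (by linarith)) hs.le).trans
      (le_add_of_nonneg_right zero_le_one)
  have hCw : ∀ x y, D o x ≤ R → D o y ≤ R → Real.sqrt (2 * D x y) *
      w (s ^ 2 * D x y, s * (Dir.scos G D u y x * Real.sqrt (2 * D x y))) ≤ C₀ := fun x y hx hy => by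
    have hm : (s * Real.sqrt (2 * D x y), Dir.scos G D u y x) ∈
        Icc (0 : ℝ) T ×ˢ Icc (-1 : ℝ) 1 :=
      ⟨⟨mul_nonneg hs.le (Real.sqrt_nonneg _), hTb x y hx hy⟩, Gen.scos_mem_Icc h u y x⟩
    refine le_trans (le_of_eq ?_) (((le_abs_self _).trans (hC' _ hm)).trans (hC₀ ▸ le_max_left C 0))
    have e1 : (s * Real.sqrt (2 * D x y)) ^ 2 / 2 = s ^ 2 * D x y := by
      rw [mul_pow, Real.sq_sqrt (by linarith [h.dist_nonneg x y])]; ring
    show _ = s * Real.sqrt (2 * D x y) / s *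
      w ((s * Real.sqrt (2 * D x y)) ^ 2 / 2, s * Real.sqrt (2 * D x y) * Dir.scos G D u y x)
    rw [e1, mul_div_cancel_left₀ _ hs.ne']
    ring_nf
  have hP := h.per_nonneg u
  have hr : ∀ y, D o y ≤ R → ∫ z, rowG G D u w s y z ∂Sharp.pm G u ≤ x := fun y hy => by
    refine (rowG_integral_le h (by omega) hs hw hwpos hu hCw hy
      (hrow u hnear y (dirCov G u y) hy (conorm_dirCov_le h u y))).trans ?_
    have := mul_le_mul_of_nonneg_left hPu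
      (mul_nonneg (abs_nonneg (Bend.modelSlope n 0 l (vol G u) - ((n : ℝ) - 1) * s)) hC₀0)
    linarith
  have hI := kerQ_le_rows h (by omega) hs hw hwpos hu hx0.le hTb hwG hr
  have hp := pair_integral hn h he hu hcert.measurable_a hcert.a_nonpos hcert.a_bounded hw hs
    hcert.beta_nonneg hx0.le hx0 hx1 hTb hwG hwL
  rw [← hMm, ← hRd, ← hE, ← hbk] at hp
  have h5 := hp.trans (mul_le_mul_of_nonneg_left hI (mul_pos hRd1 hbk0).le)
  have hPb : per G u ≤ Φt + x := hPΦ.trans hUΦ.le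
  have hg : gap G u / x ≤ x := by
    rw [div_le_iff₀ hx0]; exact hgu.trans hδ
  have hV : Vt - 2 * x ≤ vol G u - gap G u / x := by linarith
  have h6 := mul_le_mul_of_nonneg_left hV
    (by have := hcert.beta_nonneg; positivity : 0 ≤ 2 * Mm * β * s * (1 - x) ^ 2)
  have h7 : 2 * Mm * (x + E) * per G u ≤ 2 * Mm * (x + E) * (Φt + x) :=
    mul_le_mul_of_nonneg_left hPb (by positivity)
  have h8 : Rd * bk * ((2 + 2 * x) * per G u ^ 2 + 2 * (x * per G u)) ≤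
      Rd * bk * ((2 + 2 * x) * (Φt + x) ^ 2 + 2 * x * (Φt + x)) := by
    refine mul_le_mul_of_nonneg_left (add_le_add ?_ ?_) (mul_pos hRd1 hbk0).le
    · exact mul_le_mul_of_nonneg_left (pow_le_pow_left₀ hP hPb 2) (by positivity)
    · rw [← mul_assoc]
      exact mul_le_mul_of_nonneg_left hPb (by positivity)
  rw [hf] at hfx
  linarith

/-- A relaxed certificate gives the sharp inequality. -/
theorem sharpDim_of_cert (n : ℕ) [NeZero n] (hn : 2 ≤ n) {a : ℝ → ℝ} {β : ℝ}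
    (hcert : Cert n a β) : Gen.SharpDim n := by
  intro G D h Ω A hΩ hΩb hA
  by_contra hlt
  rw [not_le] at hlt
  have hn1 : 1 ≤ n := by omega
  have hn0 : (0 : ℝ) < n := by exact_mod_cast hn1
  have hA0 : 0 ≤ A := by
    obtain ⟨S, v, -, -, -, hA'⟩ := hA
    exact le_trans (h.per_nonneg (v 0)) (hA' 0)
  obtain ⟨ω, hω⟩ : ∃ ω, ω = Bend.unitBall n := ⟨_, rfl⟩
  rw [← hω] at hlt
  have hω0 : 0 < ω := hω ▸ Bend.unitBall_pos hn1
  have hV0 : 0 ≤ volG G Ω := setIntegral_nonneg hΩ fun y _ => (h.dens_pos y).le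
  obtain ⟨r, hrd⟩ : ∃ r, r = Bend.modelRad n 0 (volG G Ω / ω) := ⟨_, rfl⟩
  have hr : 0 ≤ r := hrd ▸ (Bend.modelRad_spec hn1 0 (div_nonneg hV0 hω0.le)).1
  have hrV : ω * r ^ n = volG G Ω := by
    rw [hrd, modelRad_flat hn1 (div_nonneg hV0 hω0.le), mul_div_cancel₀ _ hω0.ne']
  obtain ⟨M₀, hM₀⟩ : ∃ M₀, M₀ = ω * ((n : ℝ) * r ^ (n - 1)) := ⟨_, rfl⟩
  have eM : (n : ℝ) * ω ^ (1 / n : ℝ) * volG G Ω ^ (((n : ℝ) - 1) / n) = M₀ := by
    rw [hM₀, ← hrV, Real.mul_rpow hω0.le (pow_nonneg hr n), ← Real.rpow_natCast r n,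
      ← Real.rpow_mul hr, mul_div_cancel₀ _ hn0.ne', ← Real.rpow_natCast r (n - 1),
      Nat.cast_sub hn1, Nat.cast_one,
      show (n : ℝ) * ω ^ (1 / n : ℝ) * (ω ^ (((n : ℝ) - 1) / n) * r ^ ((n : ℝ) - 1)) =
        (n : ℝ) * (ω ^ (1 / n : ℝ) * ω ^ (((n : ℝ) - 1) / n)) * r ^ ((n : ℝ) - 1) by ring,
      ← Real.rpow_add hω0, show 1 / (n : ℝ) + ((n : ℝ) - 1) / n = 1 by field_simp; ring,
      Real.rpow_one]
    ring
  rw [eM] at hlt
  have hM₀0 : 0 < M₀ := hA0.trans_lt hlt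
  obtain ⟨l, hl1, hl2⟩ := exists_between ((div_lt_one hM₀0).2 hlt)
  have hl : 0 < l := lt_of_le_of_lt (div_nonneg hA0 hM₀0.le) hl1
  have hΦ := Bend.modelPin n hn 0 l le_rfl hl
  obtain ⟨R, M, P₀, v₀, -, hM, hP₀, hv₀, hmin⟩ := Bend.minPinP n hn G D h Ω A _ _ hΩ hΩb hA hΦ (by
    rw [modelProfile_flat, ← hω, ← hrd, ← hM₀]
    exact (div_lt_iff₀ hM₀0).1 hl1) 0
  obtain ⟨VK, hVK⟩ : ∃ VK, VK = volG G {y | D 0 y ≤ R} := ⟨_, rfl⟩
  have hpos : ∀ V ∈ Icc v₀ VK, 0 < V := fun V hV => hv₀.trans_le hV.1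
  choose U hU hev using fun V : ↥(Icc v₀ VK) =>
    eventually_avoid hn hcert h hl hl2 (o := 0) (R := R) hP₀ hv₀ hM (hpos V V.2)
  obtain ⟨F, hF⟩ := (isCompact_Icc (a := v₀) (b := VK)).elim_nhds_subcover'
    (fun V hV => U ⟨V, hV⟩) fun V hV => hU ⟨V, hV⟩
  obtain ⟨δ, hδev, hδ⟩ := (((eventually_all_finset F).2 fun V _ => hev V).and
    (self_mem_nhdsWithin : ∀ᶠ d in 𝓝[>] (0 : ℝ), d ∈ Ioi (0 : ℝ))).exists
  obtain ⟨u, hu, hPV⟩ := hmin δ hδ
  have hmem : vol G u ∈ Icc v₀ VK :=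
    ⟨hu.2.2.1, hVK ▸ h.vol_le (h.proper 0 R) hu.1⟩
  obtain ⟨V, hV, hVU⟩ := mem_iUnion₂.1 (hF hmem)
  exact hδev V hV u hu hPV hVU

end Vale.Agent.P219.CH.Flat
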