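import Vale.Agent.P219.Relax.PairRows
import Vale.Agent.P219.Bend.Euclid
import Vale.Agent.P219.Relax.Gain

/-!
# P219: relaxed certificates without curvature bound

As in `Relax`, with Euclidean comparison: the flux enters the row with its sign, the symmetrised
kernel may be negative where the curvature gain of the pair pays for it, and the comparison along a
geodesic is asked for two levels of a function on the whole line at once.
-/

noncomputable section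

open MeasureTheory Set Filter Topology Matrix
open scoped ENNReal

namespace Vale.Agent.P219.CH.Flat

open Relax (kernS)

variable {n : ℕ}

lemma sfac_flat (t : ℝ) : Bend.sfac 0 t = 1 := by
  simp [Bend.sfac, Bend.cshd_zero]

lemma sn_flat (x : ℝ) : sn 0 x = x := by simp [sn]

lemma excessB_flat (G : (Fin n → ℝ) → Matrix (Fin n) (Fin n) ℝ)
    (D : (Fin n → ℝ) → (Fin n → ℝ) → ℝ) (x y : Fin n → ℝ) :
    Relax.excessB G D 0 x y = Relax.excess G D x y := by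
  rw [Relax.excessB, Relax.excess, Bend.cfac_zero]
  ring

lemma ijacB_flat (G : (Fin n → ℝ) → Matrix (Fin n) (Fin n) ℝ)
    (D : (Fin n → ℝ) → (Fin n → ℝ) → ℝ) (x y : Fin n → ℝ) :
    Relax.ijacB G D 0 x y = Relax.ijac G D x y := by
  rw [Relax.ijacB, sfac_flat, one_pow, mul_one]

/-- Twice the symmetrised integrand `1 + kernS` against the unit ball. -/
def sym (n : ℕ) (w : ℝ × ℝ → ℝ) (r c d : ℝ) : ℝ :=
  2 + kernS n 0 ((n : ℝ) - 1) w (r ^ 2 / 2) (r * c) d +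
    kernS n 0 ((n : ℝ) - 1) w (r ^ 2 / 2) (r * d) c

/-- The curvature gain of a pair per unit of the defect of its Jacobian. -/
def gainW (w : ℝ × ℝ → ℝ) (r c d : ℝ) : ℝ :=
  2 * |c * d| * Real.sqrt (w (r ^ 2 / 2, r * c) * w (r ^ 2 / 2, r * d))

/-- The symmetrised integrand per unit of the two slopes along a geodesic. -/
def phi (n : ℕ) (ε : ℝ) (w : ℝ × ℝ → ℝ) (r c d : ℝ) : ℝ :=
  r ^ (n - 1) * (sym n w r c d + ε) / |c * d|

/-- `phi` of two crossings of levels of `g`; the distance is scaled by `σ` and `c` gives the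
absolute cosines. -/
def crossPhi (n : ℕ) (ε : ℝ) (w : ℝ × ℝ → ℝ) (g : ℝ → ℝ) (σ : ℝ) (c : ℝ → ℝ) (t t' : ℝ) : ℝ :=
  phi n ε w (σ * |t' - t|) (Real.sign (deriv g (min t t')) * c (min t t'))
    (-(Real.sign (deriv g (max t t')) * c (max t t')))

/-- The inequality for two levels on a whole line. -/
def LineOK (n : ℕ) (a : ℝ → ℝ) (β ε T : ℝ) (w : ℝ × ℝ → ℝ) : Prop :=
  ∀ (g : ℝ → ℝ) (σ lo hi : ℝ) (S U : Finset ℝ) (c : ℝ → ℝ),
    ContDiff ℝ 1 g → HasCompactSupport g → 0 < σ → 0 < lo → lo < hi → hi < 1 →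
    (∀ t, t ∈ S ↔ g t = lo) → (∀ t, t ∈ U ↔ g t = hi) →
    (∀ t ∈ S ∪ U, deriv g t ≠ 0) → (∀ t ∈ S ∪ U, c t ∈ Ioc (0 : ℝ) 1) →
    (∀ t ∈ S ∪ U, ∀ t' ∈ S ∪ U, σ * |t' - t| ≤ T) →
    ∑ t ∈ S, (a (c t) / c t - ε) + ∑ t ∈ U, (a (c t) / c t - ε) +
        4 * β * σ * (volume {t | hi < g t}).toReal ≤
      ∑ t ∈ S, ∑ t' ∈ U, crossPhi n ε w g σ c t t'

/-- The kernel is negative by no more than the curvature gain. -/
def GainOK (n : ℕ) (ε T : ℝ) (w : ℝ × ℝ → ℝ) : Prop :=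
  ∀ r c d, r ∈ Icc 0 T → c ∈ Icc (-1 : ℝ) 1 → d ∈ Icc (-1 : ℝ) 1 →
    -ε ≤ sym n w r c d + gainW w r c d

/-- A relaxed certificate of the sharp constant in dimension `n`. -/
structure Cert (n : ℕ) [NeZero n] (a : ℝ → ℝ) (β : ℝ) : Prop where
  beta_nonneg : 0 ≤ β
  measurable_a : Measurable a
  a_nonpos : ∀ c ∈ Icc (0 : ℝ) 1, a c ≤ 0
  a_bounded : ∃ B, ∀ c ∈ Icc (0 : ℝ) 1, -B ≤ a c
  value : Gen.cmean n (fun c => -a c) = β / n - 1
  weight : ∀ ε T : ℝ, 0 < ε → 0 < T → ∃ w : ℝ × ℝ → ℝ, ContDiff ℝ 1 w ∧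
    (∀ p q, 0 ≤ p → q ^ 2 ≤ 2 * p → 0 < w (p, q)) ∧
    GainOK n ε T w ∧ LineOK n a β ε T w

end Vale.Agent.P219.CH.Flat
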