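import Vale.Agent.P219.Flat.Subst
import Vale.Agent.P219.Relax.Poly.FastCheck

/-!
# Sign checks over a tree of dyadic boxes

A tree halves a box along one axis at each node and carries at each leaf the parameters of the rows
to be checked there; one evaluation checks the whole tree and gives the rows on the whole box.
-/

noncomputable section

namespace Vale.Agent.P219.Poly.E

/-- An axis of a box: the interval `[a / q, (a + 1) / q]`; if `inv`, that interval for `2 / x`. -/
structure Side where
  inv : Bool
  a : ℕ
  q : ℕ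

namespace Side

/-- The point lies in the interval. -/
def Mem (s : Side) (x : ℝ) : Prop :=
  if s.inv then 0 < x ∧ s.a * x ≤ 2 * s.q ∧ 2 * (s.q : ℝ) ≤ (s.a + 1) * x
  else (s.a : ℝ) ≤ x * s.q ∧ x * s.q ≤ s.a + 1

/-- The lower half. -/
def lo (s : Side) : Side := ⟨s.inv, 2 * s.a, 2 * s.q⟩

/-- The upper half. -/
def hi (s : Side) : Side := ⟨s.inv, 2 * s.a + 1, 2 * s.q⟩

lemma mem_halves {s : Side} {x : ℝ} (h : s.Mem x) : s.lo.Mem x ∨ s.hi.Mem x := by
  obtain ⟨i, a, q⟩ := s
  cases i
  · simp only [Mem, lo, hi, Bool.false_eq_true, if_false, Nat.cast_mul, Nat.cast_add, Nat.cast_one,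
      Nat.cast_ofNat] at h ⊢
    rcases le_total (x * (2 * q)) (2 * a + 1) with h1 | h1
    · exact Or.inl ⟨by linarith [h.1], h1⟩
    · exact Or.inr ⟨h1, by linarith [h.2]⟩
  · simp only [Mem, lo, hi, if_true, Nat.cast_mul, Nat.cast_add, Nat.cast_one, Nat.cast_ofNat]
      at h ⊢
    rcases le_total (2 * (2 * (q : ℝ))) ((2 * a + 1) * x) with h1 | h1
    · exact Or.inl ⟨h.1, by linarith [h.2.1], h1⟩
    · exact Or.inr ⟨h.1, h1, by linarith [h.2.2]⟩

/-- The numerator of the substitution. -/
def num (s : Side) (i : Fin 3) : E :=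
  if s.inv then .k (2 * (s.q : ℤ)) else affNum s.a 1 i

/-- The denominator of the substitution. -/
def den (s : Side) (i : Fin 3) : E :=
  if s.inv then affNum s.a 1 i else .k s.q

/-- The unit variable of a point. -/
def unit (s : Side) (x : ℝ) : ℝ :=
  if s.inv then 2 * s.q / x - s.a else x * s.q - s.a

lemma subst {s : Side} {x : ℝ} (h : s.Mem x) (hq : 0 < s.q) (i : Fin 3) (v : Fin 3 → ℝ)
    (hv : v i = s.unit x) :
    s.unit x ∈ Set.Icc (0 : ℝ) 1 ∧ 0 < sem v (s.den i) ∧
      sem v (s.num i) = x * sem v (s.den i) := by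
  obtain ⟨j, a, q⟩ := s
  have hq' : (0 : ℝ) < q := by exact_mod_cast hq
  cases j
  · simp only [Mem, unit, Bool.false_eq_true, if_false] at h hv ⊢
    simp only [num, den, affNum, Bool.false_eq_true, if_false, sem, hv]
    push_cast
    exact ⟨⟨by linarith [h.1], by linarith [h.2]⟩, hq', by ring⟩
  · simp only [Mem, unit, if_true] at h hv ⊢
    simp only [num, den, affNum, if_true, sem, hv]
    obtain ⟨hx, h1, h2⟩ := h
    push_cast
    refine ⟨⟨by rw [sub_nonneg, le_div_iff₀ hx]; exact h1,
      by rw [sub_le_iff_le_add', div_le_iff₀ hx]; exact h2⟩, ?_, ?_⟩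
    · rw [one_mul, add_sub_cancel]
      positivity
    · rw [one_mul, add_sub_cancel, mul_div_cancel₀ _ hx.ne']

end Side

/-- The point lies in the box. -/
def InBox (b : Fin 3 → Side) (w : Fin 3 → ℝ) : Prop := ∀ i, (b i).Mem (w i)

/-- The check of a row on a box. -/
def boxCheck (b : Fin 3 → Side) (p : E) : Bool :=
  check2 (homSub (fun i => (b i).num i) (fun i => (b i).den i) p)

lemma sem_nonneg_of_boxCheck {b : Fin 3 → Side} {p : E} (h : boxCheck b p = true)
    (hq : ∀ i, 0 < (b i).q) {w : Fin 3 → ℝ} (hw : InBox b w) : 0 ≤ sem w p := by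
  have hs := fun i => Side.subst (hw i) (hq i) i (fun j => (b j).unit (w j)) rfl
  exact sem_nonneg_of_homSub (check_of_check2 h) (v := fun j => (b j).unit (w j))
    (fun i => (hs i).1) (fun i => (hs i).2.1) (fun i => (hs i).2.2)

/-- A subdivision with parameters at the leaves. -/
inductive Subdiv (α : Type) where
  | leaf (v : α)
  | node (ax : Fin 3) (l r : Subdiv α)

namespace Subdiv

variable {α : Type}

/-- The box with one axis replaced. -/
def setSide (b : Fin 3 → Side) (ax : Fin 3) (s : Side) : Fin 3 → Side :=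
  fun i => if i = ax then s else b i

lemma inBox_set {b : Fin 3 → Side} {w : Fin 3 → ℝ} (hw : InBox b w) {ax : Fin 3} {s : Side}
    (hs : s.Mem (w ax)) : InBox (setSide b ax s) w := fun i => by
  unfold setSide
  split_ifs with h
  · subst h; exact hs
  · exact hw i

/-- The check of all rows on all leaves. -/
def ok (good : α → Bool) (rows : α → List E) : Subdiv α → (Fin 3 → Side) → Bool
  | leaf v, b => good v && (rows v).all fun p => boxCheck b p
  | node ax l r, b =>
      ok good rows l (setSide b ax (b ax).lo) && ok good rows r (setSide b ax (b ax).hi)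

/-- A node is checked by its halves. -/
lemma ok_node {good : α → Bool} {rows : α → List E} {ax : Fin 3} {l r : Subdiv α} {b : Fin 3 → Side}
    (hl : ok good rows l (setSide b ax (b ax).lo) = true)
    (hr : ok good rows r (setSide b ax (b ax).hi) = true) : ok good rows (node ax l r) b = true := by
  rw [ok, hl, hr, Bool.and_self]

/-- A checked tree gives good parameters with nonnegative rows at every point of its box. -/
theorem sound {good : α → Bool} {rows : α → List E} : ∀ (t : Subdiv α) (b : Fin 3 → Side),
    ok good rows t b = true → (∀ i, 0 < (b i).q) → ∀ w, InBox b w →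
      ∃ v, good v = true ∧ ∀ p ∈ rows v, 0 ≤ sem w p
  | leaf v, b, h, hq, w, hw => by
      rw [ok, Bool.and_eq_true, List.all_eq_true] at h
      exact ⟨v, h.1, fun p hp => sem_nonneg_of_boxCheck (h.2 p hp) hq hw⟩
  | node ax l r, b, h, hq, w, hw => by
      rw [ok, Bool.and_eq_true] at h
      rcases Side.mem_halves (hw ax) with h1 | h1
      · exact sound l _ h.1 (fun i => by unfold setSide; split_ifs with e <;>
          simp [Side.lo, hq]) w (inBox_set hw h1)
      · exact sound r _ h.2 (fun i => by unfold setSide; split_ifs with e <;>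
          simp [Side.hi, hq]) w (inBox_set hw h1)

end Subdiv

end Vale.Agent.P219.Poly.E
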