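import Vale.Agent.P219.Flat.Defs

/-!
# P219: the two-level inequality along one geodesic, without curvature bound
-/

noncomputable section

open MeasureTheory Set Filter Topology Matrix
open scoped ENNReal

namespace Vale.Agent.P219.CH.Flat

open Relax (kernS halfInt wtBoth ofReal_abs_eq sign_mul_abs_div setLIntegral_Ioi_shift scos_line ijac ijac_pos ijac_le_one excess excess_nonneg ijacB excessB sq_dist_arg conorm_eq_zero_out)
open Gen (measurable_scos scos_mem_Icc gl pairW mass radial cmean cmean_nonneg)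
open Six (slp cosv vnorm flow line volM liou)
open Relax.LineInt (ordInt)

variable {n : ℕ} {G : (Fin n → ℝ) → Matrix (Fin n) (Fin n) ℝ}
  {D : (Fin n → ℝ) → (Fin n → ℝ) → ℝ} {e : Six.Phase n → Fin n → ℝ}
  {u : (Fin n → ℝ) → ℝ} {w : ℝ × ℝ → ℝ} {s ε T η β κ : ℝ} {a : ℝ → ℝ}
  {o : Fin n → ℝ} {R : ℝ}

/-- The symmetrised kernel of a pair at scale `s` with the two densities of perimeter. -/
def pairS (G : (Fin n → ℝ) → Matrix (Fin n) (Fin n) ℝ) (D : (Fin n → ℝ) → (Fin n → ℝ) → ℝ)
    (u : (Fin n → ℝ) → ℝ) (w : ℝ × ℝ → ℝ) (s ε : ℝ) (x y : Fin n → ℝ) : ℝ :=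
  (sym n w (s * Real.sqrt (2 * D x y)) (Dir.scos G D u y x) (Dir.scos G D u x y) + ε) *
    (conorm G x (cd u x) * conorm G y (cd u y))

lemma continuous_sym (hw : ContDiff ℝ 1 w) :
    Continuous fun q : ℝ × ℝ × ℝ => sym n w q.1 q.2.1 q.2.2 := by
  have key : ∀ f g : ℝ × ℝ × ℝ → ℝ, Continuous f → Continuous g → Continuous fun q =>
      kernS n 0 (((n : ℝ) - 1)) w (q.1 ^ 2 / 2) (q.1 * f q) (g q) := by
    intro f g hf hg
    have hz : Continuous fun q : ℝ × ℝ × ℝ => (q.1 ^ 2 / 2, q.1 * f q) :=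
      ((continuous_fst.pow 2).div_const 2).prodMk (continuous_fst.mul hf)
    have hd : ∀ v : ℝ × ℝ, Continuous fun q : ℝ × ℝ × ℝ => fderiv ℝ w (q.1 ^ 2 / 2, q.1 * f q) v :=
      fun v => ((hw.continuous_fderiv one_ne_zero).comp hz).clm_apply continuous_const
    have w1 : Continuous fun q : ℝ × ℝ × ℝ => w (q.1 ^ 2 / 2, q.1 * f q) := hw.continuous.comp hz
    have a1 : Continuous fun q : ℝ × ℝ × ℝ => Dir.wa w (q.1 ^ 2 / 2, q.1 * f q) := hd (1, 0)
    have b1 : Continuous fun q : ℝ × ℝ × ℝ => Dir.wb w (q.1 ^ 2 / 2, q.1 * f q) := hd (0, 1)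
    have c1 : Continuous fun q : ℝ × ℝ × ℝ => Bend.cfac 0 (q.1 ^ 2 / 2) :=
      (GenK.continuous_cfac_sq 0).comp continuous_fst
    have e1 : Continuous fun q : ℝ × ℝ × ℝ =>
        Real.sqrt (2 * (q.1 ^ 2 / 2) - (q.1 * f q) ^ 2) / Bend.sfac 0 (q.1 ^ 2 / 2) :=
      (Real.continuous_sqrt.comp (by fun_prop)).div
        ((GenK.continuous_sfac_sq 0).comp continuous_fst)
        fun q => (Bend.sfac_pos 0 (show (0 : ℝ) ≤ q.1 ^ 2 / 2 by positivity)).ne'
    unfold kernS
    fun_prop
  unfold sym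
  exact (continuous_const.add (key _ _ (by fun_prop) (by fun_prop))).add
    (key _ _ (by fun_prop) (by fun_prop))

lemma measurable_phi (hw : ContDiff ℝ 1 w) :
    Measurable fun q : ℝ × ℝ × ℝ => phi n ε w q.1 q.2.1 q.2.2 := by
  have h1 : Measurable fun q : ℝ × ℝ × ℝ => sym n w q.1 q.2.1 q.2.2 + ε :=
    ((continuous_sym hw).measurable).add_const ε
  have h2 : Measurable fun q : ℝ × ℝ × ℝ => q.1 ^ (n - 1) := by fun_prop
  have h3 : Measurable fun q : ℝ × ℝ × ℝ => |q.2.1 * q.2.2| := by fun_prop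
  exact (h2.mul h1).div h3

lemma measurable_pairS (h : IsCH G D) (hu : ContDiff ℝ 1 u) (hw : ContDiff ℝ 1 w) :
    Measurable fun z : (Fin n → ℝ) × (Fin n → ℝ) => pairS G D u w s ε z.1 z.2 := by
  have hd := measurable_scos h hu
  have hc : Measurable fun z : (Fin n → ℝ) × (Fin n → ℝ) => Dir.scos G D u z.2 z.1 := by
    simpa only [Function.comp_def, Prod.fst_swap, Prod.snd_swap] using
      hd.comp (measurable_swap (α := Fin n → ℝ) (β := Fin n → ℝ))
  have hr : Measurable fun z : (Fin n → ℝ) × (Fin n → ℝ) => s * Real.sqrt (2 * D z.1 z.2) :=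
    ((h.continuous_D.measurable.const_mul 2).sqrt).const_mul s
  have h3 := ((continuous_sym (n := n) hw).measurable.comp
    (hr.prodMk (hc.prodMk hd))).add_const ε
  have h2 : Measurable fun z : (Fin n → ℝ) × (Fin n → ℝ) =>
      conorm G z.1 (cd u z.1) * conorm G z.2 (cd u z.2) :=
    ((h.continuous_conorm_cd hu).measurable.comp measurable_fst).fun_mul
      ((h.continuous_conorm_cd hu).measurable.comp measurable_snd)
  exact h3.fun_mul h2

/-- Where a cosine vanishes the kernel is nonnegative. -/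
lemma pairS_nonneg_of_crit (h : IsCH G D) (hu : Comp {y | D o y ≤ R} u) (hs : 0 ≤ s)
    (hT : ∀ x y, D o x ≤ R → D o y ≤ R → s * Real.sqrt (2 * D x y) ≤ T)
    (hG : GainOK n ε T w) (x y : Fin n → ℝ)
    (hcrit : Dir.scos G D u y x = 0 ∨ Dir.scos G D u x y = 0) :
    0 ≤ pairS G D u w s ε x y := by
  by_cases hx : D o x ≤ R
  swap
  · simp [pairS, conorm_eq_zero_out hu hx]
  by_cases hy : D o y ≤ R
  swap
  · simp [pairS, conorm_eq_zero_out hu hy]
  refine mul_nonneg ?_ (mul_nonneg (conorm_nonneg _ _) (conorm_nonneg _ _))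
  have := hG _ _ _ ⟨mul_nonneg hs (Real.sqrt_nonneg _), hT x y hx hy⟩
    (scos_mem_Icc h u y x) (scos_mem_Icc h u x y)
  have e : gainW w (s * Real.sqrt (2 * D x y)) (Dir.scos G D u y x) (Dir.scos G D u x y) = 0 := by
    rcases hcrit with h0 | h0 <;> simp [gainW, h0]
  linarith

/-- The pair of two crossings in the units of the levels. -/
lemma pair_units (k₁ k₂ N σ d₁ d₂ S r : ℝ) (hk₁ : 0 < k₁) (hk₂ : 0 < k₂) (hN : 0 < N)
    (h₁ : d₁ ≠ 0) (h₂ : d₂ ≠ 0) (m : ℕ) :
    |d₁| * (|d₂| * ((σ * r) ^ m * S / |d₁ / (k₁ * N) * (-d₂ / (k₂ * N))| / N)) =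
      σ ^ m * (S * (k₁ * k₂)) * (sn 0 r ^ m * N) := by
  have h₁' := abs_pos.2 h₁
  have h₂' := abs_pos.2 h₂
  rw [abs_mul, abs_div, abs_div, abs_neg, abs_of_pos (mul_pos hk₁ hN), abs_of_pos (mul_pos hk₂ hN),
    sn_flat, mul_pow]
  field_simp

/-- The inequality along one geodesic. -/
theorem line_le (hflow : Six.FlowPin n) (h : IsCH G D) (he : Six.IsExp G D e)
    (hu : Comp {y | D o y ≤ R} u) (ha : Measurable a) (hw : ContDiff ℝ 1 w) (hs : 0 < s)
    (hβ : 0 ≤ β) (hη : 0 < η) (hη1 : η < 1)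
    (hT : ∀ x y, D o x ≤ R → D o y ≤ R → s * Real.sqrt (2 * D x y) ≤ T)
    (hG : GainOK n ε T w) (hL : LineOK n a β ε T w) (p : Six.Phase n) (hp : p.2 ≠ 0) :
    ∫⁻ t, (ENNReal.ofReal (s ^ (n - 1)) *
          halfInt G e 0 (fun x y => -pairS G D u w s ε x y) (flow e t p) +
        ENNReal.ofReal (2 * β * s * (1 - η) ^ 2) *
          {x | 1 - η < u x}.indicator 1 (flow e t p).1) ≤
      ∫⁻ t, (ENNReal.ofReal (s ^ (n - 1)) *
          halfInt G e 0 (pairS G D u w s ε) (flow e t p) +
        wtBoth G u a ε (flow e t p)) := by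
  have hpin := hflow
  obtain ⟨hsymm, -, h0, -, hcomp, -, hN, hD, -, hcont, -, -⟩ := hflow G D e h he
  obtain ⟨N, hNd⟩ : ∃ N, N = vnorm G p.1 p.2 := ⟨_, rfl⟩
  have hN0 : 0 < N := hNd ▸ h.vnorm_pos hp
  set g : ℝ → ℝ := gl e u p
  set c : ℝ → ℝ := fun t => cosv G u (flow e t p)
  set k : ℝ → ℝ := fun t => conorm G (line e p t) (cd u (line e p t))
  have hgC : ContDiff ℝ 1 g := Gen.contDiff_gl he hu.1 p
  have hgK : HasCompactSupport g := Gen.hasCompactSupport_gl hpin h he hu p hp
  have hdg : ∀ t, deriv g t = slp u (flow e t p) := fun t => by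
    show deriv (gl e u p) t = _
    rw [Gen.deriv_gl hpin h he hu.1]
  have hN' : ∀ t, vnorm G (flow e t p).1 (flow e t p).2 = N := fun t => by rw [hN, hNd]
  have hc : ∀ t, c t = |deriv g t| / (k t * N) := fun t => by
    simp only [c, cosv, hN' t, hdg]; rfl
  have hdle : ∀ t, |deriv g t| ≤ k t * N := fun t => by
    have := h.dotProduct_le (flow e t p).1 (cd u (flow e t p).1) (flow e t p).2
    rw [hN' t] at this
    rw [hdg]
    exact this
  have hk0 : ∀ t, 0 ≤ k t := fun t => conorm_nonneg _ _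
  set Ψ : ℝ → ℝ → ℝ := fun x y => crossPhi n ε w g (s * N) c x y / N
  have hΨeq : ∀ x y, Ψ x y = phi n ε w (s * N * |y - x|)
      (deriv g (min x y) / (k (min x y) * N)) (-deriv g (max x y) / (k (max x y) * N)) / N :=
    fun x y => by simp only [Ψ, crossPhi, hc, sign_mul_abs_div, neg_div]
  have hΨm : Measurable (Function.uncurry Ψ) := by
    have e1 : Function.uncurry Ψ = fun z : ℝ × ℝ => phi n ε w (s * N * |z.2 - z.1|)
        (deriv g (min z.1 z.2) / (k (min z.1 z.2) * N))
        (-deriv g (max z.1 z.2) / (k (max z.1 z.2) * N)) / N := funext fun z => hΨeq z.1 z.2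
    have hkc : Continuous k := (h.continuous_conorm_cd hu.1).comp
      (he.continuous_line.comp (continuous_const.prodMk continuous_id))
    have hdm := (measurable_deriv g)
    have hkm := hkc.measurable
    rw [e1]
    exact ((measurable_phi hw).comp
      ((by fun_prop : Measurable fun z : ℝ × ℝ => s * N * |z.2 - z.1|).prodMk
      (((hdm.comp (measurable_fst.min measurable_snd)).div
        ((hkm.comp (measurable_fst.min measurable_snd)).mul_const N)).prodMk
      ((hdm.comp (measurable_fst.max measurable_snd)).neg.div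
        ((hkm.comp (measurable_fst.max measurable_snd)).mul_const N))))).div_const N
  have hΨs : ∀ x y, Ψ x y = Ψ y x := fun x y => by
    simp only [Ψ, crossPhi, min_comm x y, max_comm x y, abs_sub_comm x y]
  have hwm : Measurable fun t => (ε + -a (c t) / c t) / N := by
    have hcm : Measurable c := by
      have e1 : c = fun t => |deriv g t| / (k t * N) := funext hc
      rw [e1]
      exact (measurable_deriv g).abs.div ((((h.continuous_conorm_cd hu.1).comp
        (he.continuous_line.comp (continuous_const.prodMk continuous_id))).measurable).mul_const N)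
    exact (((ha.comp hcm).neg.div hcm).const_add ε).div_const N
  have hin : ∀ t, g t ≠ 0 → D o (line e p t) ≤ R := fun t ht =>
    hu.2.1 (subset_tsupport u ht)
  have key := Relax.LineInt.lines_le hgC hgK (fun t => hu.2.2 _) hΨm hΨs hwm
    (mul_nonneg (mul_nonneg (by norm_num : (0 : ℝ) ≤ 4) hβ) hs.le : 0 ≤ 4 * β * s) hη hη1
    fun lo hi S U h0lo hlh h1 hS hU hne => by
      have hmem : ∀ t ∈ S ∪ U, g t ≠ 0 := fun t ht => by
        rcases Finset.mem_union.1 ht with ht | ht
        · rw [(hS t).1 ht]; exact h0lo.ne'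
        · rw [(hU t).1 ht]; exact (h0lo.trans hlh).ne'
      have hcr : ∀ t ∈ S ∪ U, c t ∈ Ioc (0 : ℝ) 1 := fun t ht => by
        have hd0 := abs_pos.2 (hne t ht)
        rw [hc]
        exact ⟨div_pos hd0 (hd0.trans_le (hdle t)),
          (div_le_one (hd0.trans_le (hdle t))).2 (hdle t)⟩
      have hrange : ∀ t ∈ S ∪ U, ∀ t' ∈ S ∪ U, s * N * |t' - t| ≤ T := fun t ht t' ht' => by
        have h1 := hT _ _ (hin t (hmem t ht)) (hin t' (hmem t' ht'))
        have e2 : D (line e p t) (line e p t') = (t' - t) ^ 2 * N ^ 2 / 2 := by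
          have := hD (flow e t p) (t' - t)
          rw [hN' t] at this
          rw [← this]
          show D (flow e t p).1 _ = D (flow e t p).1 (flow e (t' - t) (flow e t p)).1
          rw [hcomp]
          simp [Six.flow, Six.line]
        rw [e2, show 2 * ((t' - t) ^ 2 * N ^ 2 / 2) = ((t' - t) * N) ^ 2 by ring,
          Real.sqrt_sq_eq_abs, abs_mul, abs_of_pos hN0] at h1
        linarith
      have := div_le_div_of_nonneg_right (hL g (s * N) lo hi S U c hgC hgK (mul_pos hs hN0) h0lo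
        hlh h1 hS hU hne hcr hrange) hN0.le
      refine le_trans (le_of_eq ?_) (this.trans (le_of_eq ?_))
      · rw [add_div, add_div, Finset.sum_div, Finset.sum_div]
        congr 1
        · congr 1 <;> exact Finset.sum_congr rfl fun t _ => by ring
        · field_simp
      · simp only [Finset.sum_div]; rfl
  set O : Set (Fin n → ℝ) := {x | 1 - η < u x}
  have hOm : Measurable fun t => (O.indicator 1 (flow e t p).1 : ℝ≥0∞) :=
    (measurable_one.indicator (isOpen_lt continuous_const hu.1.continuous).measurableSet).comp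
      ((hcont.comp (continuous_id.prodMk continuous_const)).fst.measurable)
  have eO : ∫⁻ t, ENNReal.ofReal (2 * β * s * (1 - η) ^ 2) * O.indicator 1 (flow e t p).1 =
      ENNReal.ofReal (4 * β * s * ((1 - η) ^ 2 / 2)) * volume {t | 1 - η < g t} := by
    rw [lintegral_const_mul _ hOm]
    congr 1
    · congr 1; ring
    · rw [← lintegral_indicator_one (isOpen_lt continuous_const hgC.continuous).measurableSet]
      rfl
  have hwt : ∀ t, wtBoth G u a ε (flow e t p) =
      ENNReal.ofReal |deriv g t| * ENNReal.ofReal ((ε + -a (c t) / c t) / N) := fun t => by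
    simp only [wtBoth, pairW, hN' t, hdg, ofReal_abs_eq, add_mul, c]
  have hhalf : ∀ (f : (Fin n → ℝ) → (Fin n → ℝ) → ℝ) (x : ℝ),
      ENNReal.ofReal (s ^ (n - 1)) * halfInt G e 0 f (flow e x p) =
        ∫⁻ y in Ioi x, ENNReal.ofReal (s ^ (n - 1)) *
          (ENNReal.ofReal (f (line e p x) (line e p y)) *
            ENNReal.ofReal (sn 0 ((y - x) * N) ^ (n - 1) * N)) := by
    intro f x
    rw [halfInt, ← lintegral_const_mul' _ _ ENNReal.ofReal_ne_top, setLIntegral_Ioi_shift _ x]
    refine lintegral_congr fun t => ?_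
    rw [hN' x, add_sub_cancel_left]
    congr 3
    show f (flow e x p).1 (flow e t (flow e x p)).1 = f (flow e x p).1 (flow e (x + t) p).1
    rw [hcomp]
  have hgeo : ∀ x y, x < y →
      Real.sqrt (2 * D (line e p x) (line e p y)) = (y - x) * N ∧
      Dir.scos G D u (line e p y) (line e p x) = deriv g x / (k x * N) ∧
      Dir.scos G D u (line e p x) (line e p y) = -deriv g y / (k y * N) := by
    intro x y hxy
    have := scos_line hpin h he u (flow e x p) (sub_pos.2 hxy)
    rw [hN' x, hcomp, add_sub_cancel] at this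
    have e2 : line e (flow e x p) (y - x) = line e p y := by
      show (flow e (y - x) (flow e x p)).1 = (flow e y p).1
      rw [hcomp, add_sub_cancel]
    rw [e2] at this
    rw [hdg, hdg]
    exact this
  have hpos : ∀ x y, x < y → deriv g x ≠ 0 → deriv g y ≠ 0 → ∀ q : ℝ, (q = 1 ∨ q = -1) →
      ENNReal.ofReal |deriv g x| * (ENNReal.ofReal |deriv g y| * ENNReal.ofReal (q * Ψ x y)) =
        ENNReal.ofReal (s ^ (n - 1)) *
          (ENNReal.ofReal (q * pairS G D u w s ε (line e p x) (line e p y)) *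
            ENNReal.ofReal (sn 0 ((y - x) * N) ^ (n - 1) * N)) := by
    intro x y hxy hx hy q _
    obtain ⟨g1, g2, g3⟩ := hgeo x y hxy
    have kx : 0 < k x := pos_of_mul_pos_left ((abs_pos.2 hx).trans_le (hdle x)) hN0.le
    have ky : 0 < k y := pos_of_mul_pos_left ((abs_pos.2 hy).trans_le (hdle y)) hN0.le
    have hsn : 0 ≤ sn 0 ((y - x) * N) ^ (n - 1) * N :=
      mul_nonneg (pow_nonneg (Bend.sn_pos 0 (mul_pos (sub_pos.2 hxy) hN0)).le _) hN0.le
    rw [← ENNReal.ofReal_mul' hsn, ← ENNReal.ofReal_mul (pow_nonneg hs.le _),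
      ← ENNReal.ofReal_mul (abs_nonneg _), ← ENNReal.ofReal_mul (abs_nonneg _)]
    congr 1
    have := pair_units (k x) (k y) N s (deriv g x) (deriv g y)
      (sym n w (s * ((y - x) * N)) (deriv g x / (k x * N)) (-deriv g y / (k y * N)) + ε)
      ((y - x) * N) kx ky hN0 hx hy (n - 1)
    rw [pairS, g1, g2, g3, hΨeq, min_eq_left hxy.le, max_eq_right hxy.le,
      abs_of_pos (sub_pos.2 hxy), phi, show s * N * (y - x) = s * ((y - x) * N) by ring]
    linear_combination q * this
  have hneg : ∫⁻ x, ENNReal.ofReal (s ^ (n - 1)) *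
      halfInt G e 0 (fun x y => -pairS G D u w s ε x y) (flow e x p) ≤
        ordInt g fun x y => -Ψ x y := by
    refine lintegral_mono fun x => ?_
    rw [hhalf]
    refine setLIntegral_mono' measurableSet_Ioi fun y hy => ?_
    by_cases hcrit : deriv g x = 0 ∨ deriv g y = 0
    · obtain ⟨-, g2, g3⟩ := hgeo x y hy
      have := pairS_nonneg_of_crit h hu hs.le hT hG (line e p x) (line e p y)
        (hcrit.imp (fun h0 => by simp [g2, h0]) fun h0 => by simp [g3, h0])
      rw [ENNReal.ofReal_of_nonpos (neg_nonpos.2 this), zero_mul, mul_zero]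
      exact zero_le
    · rw [not_or] at hcrit
      have := hpos x y hy hcrit.1 hcrit.2 (-1) (Or.inr rfl)
      simp only [neg_one_mul] at this
      exact this.symm.le
  have hposI : ordInt g Ψ ≤ ∫⁻ x, ENNReal.ofReal (s ^ (n - 1)) *
      halfInt G e 0 (pairS G D u w s ε) (flow e x p) := by
    refine lintegral_mono fun x => ?_
    rw [hhalf]
    refine setLIntegral_mono' measurableSet_Ioi fun y hy => ?_
    by_cases hcrit : deriv g x = 0 ∨ deriv g y = 0
    · rcases hcrit with h0 | h0 <;> simp [h0]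
    · rw [not_or] at hcrit
      have := hpos x y hy hcrit.1 hcrit.2 1 (Or.inl rfl)
      simp only [one_mul] at this
      exact this.le
  rw [lintegral_add_right _ (hOm.const_mul _), eO]
  refine le_trans (add_le_add hneg le_rfl) (key.trans ?_)
  rw [lintegral_add_right' _ ?_]
  · exact add_le_add hposI (le_of_eq (lintegral_congr fun t => (hwt t).symm))
  · simp only [hwt]
    exact ((measurable_deriv g).abs.ennreal_ofReal.mul hwm.ennreal_ofReal).aemeasurable

end Vale.Agent.P219.CH.Flat
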