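import Vale.Agent.P219.Flat.PairInt

/-!
# P219: the kernel with the Jacobian against two exact rows, without curvature bound
-/

noncomputable section

open MeasureTheory Set Filter Topology Matrix
open scoped ENNReal

namespace Vale.Agent.P219.CH.Flat

lemma continuous_excess {n : ℕ} {G : (Fin n → ℝ) → Matrix (Fin n) (Fin n) ℝ}
    {D : (Fin n → ℝ) → (Fin n → ℝ) → ℝ} (h : IsCH G D) :
    Continuous fun z : (Fin n → ℝ) × (Fin n → ℝ) => Relax.excess G D z.1 z.2 := by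
  simpa only [excessB_flat] using Relax.continuous_excessB h 0

open Relax (rowIntegS rowDensS integrable_rowDensS varX_zero kernS halfInt wtBoth ofReal_abs_eq sign_mul_abs_div setLIntegral_Ioi_shift scos_line ijac ijac_pos ijac_le_one excess excess_nonneg ijacB excessB sq_dist_arg conorm_eq_zero_out)
open Gen (scaled fderiv_scaled dirCov conorm_dirCov_le side_dirCov measurable_scos scos_mem_Icc gl pairW mass radial cmean cmean_nonneg)
open Six (slp cosv vnorm flow line volM liou)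
open Relax.LineInt (ordInt)

variable {n : ℕ} {G : (Fin n → ℝ) → Matrix (Fin n) (Fin n) ℝ}
  {D : (Fin n → ℝ) → (Fin n → ℝ) → ℝ} {e : Six.Phase n → Fin n → ℝ}
  {u : (Fin n → ℝ) → ℝ} {w : ℝ × ℝ → ℝ} {s ε T η β κ : ℝ} {a : ℝ → ℝ}
  {o : Fin n → ℝ} {R : ℝ}

/-- The row of `x` at `y` at scale `s`, with its share of the excess. -/
def rowG (G : (Fin n → ℝ) → Matrix (Fin n) (Fin n) ℝ) (D : (Fin n → ℝ) → (Fin n → ℝ) → ℝ)
    (u : (Fin n → ℝ) → ℝ) (w : ℝ × ℝ → ℝ) (s : ℝ) (x y : Fin n → ℝ) : ℝ :=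
  kernS n 0 (((n : ℝ) - 1)) w (s ^ 2 * D x y)
      (s * (Dir.scos G D u y x * Real.sqrt (2 * D x y))) (Dir.scos G D u x y) +
    Dir.scos G D u x y ^ 2 * excess G D x y *
      w (s ^ 2 * D x y, s * (Dir.scos G D u y x * Real.sqrt (2 * D x y)))

/-- The integrand of the row of the weight at scale `s` is the kernel in curvature `-1`. -/
lemma kernS_scaled (hw : ContDiff ℝ 1 w) {b : ℝ} (hb : 0 ≤ b) (h a σ d : ℝ) :
    kernS n 0 (h * b) (scaled w b) a σ d = kernS n 0 h w (b ^ 2 * a) (b * σ) d := by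
  have ea : ((b ^ 2 * 1, b * 0) : ℝ × ℝ) = b ^ 2 • ((1, 0) : ℝ × ℝ) := by simp
  have eb : ((b ^ 2 * 0, b * 1) : ℝ × ℝ) = b • ((0, 1) : ℝ × ℝ) := by simp
  have e1 : Dir.wa (scaled w b) (a, σ) = b ^ 2 * Dir.wa w (b ^ 2 * a, b * σ) := by
    simp only [Dir.wa, fderiv_scaled hw]
    rw [ea, map_smul, smul_eq_mul]
  have e2 : Dir.wb (scaled w b) (a, σ) = b * Dir.wb w (b ^ 2 * a, b * σ) := by
    simp only [Dir.wb, fderiv_scaled hw]
    rw [eb, map_smul, smul_eq_mul]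
  have e3 : Real.sqrt (2 * (b ^ 2 * a) - (b * σ) ^ 2) = b * Real.sqrt (2 * a - σ ^ 2) := by
    rw [show 2 * (b ^ 2 * a) - (b * σ) ^ 2 = b ^ 2 * (2 * a - σ ^ 2) by ring,
      Real.sqrt_mul (sq_nonneg b), Real.sqrt_sq hb]
  have e4 : Real.sqrt (2 * (b ^ 2 * a)) = b * Real.sqrt (2 * a) := by
    rw [show 2 * (b ^ 2 * a) = b ^ 2 * (2 * a) by ring, Real.sqrt_mul (sq_nonneg b),
      Real.sqrt_sq hb]
  simp only [kernS, e1, e2, e3, e4, abs_mul, abs_of_nonneg hb, scaled, Bend.cfac_zero,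
    sfac_flat]
  ring

/-- The gain pays for the negative part of the kernel. -/
theorem kerQ_le (h : IsCH G D) (hs : 0 < s) (hn : 0 < n)
    (hwpos : ∀ p q, 0 ≤ p → q ^ 2 ≤ 2 * p → 0 < w (p, q)) (hε : 0 ≤ ε) (x y : Fin n → ℝ)
    (hT : s * Real.sqrt (2 * D x y) ≤ T) (hG : GainOK n ε T w) :
    kerQ G D u w s ε x y ≤
      2 + 2 * ε + rowG G D u w s x y + rowG G D u w s y x := by
  have hD0 := h.dist_nonneg x y
  obtain ⟨r, hr⟩ : ∃ r, r = Real.sqrt (2 * D x y) := ⟨_, rfl⟩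
  have hr2 : r ^ 2 = 2 * D x y := hr ▸ Real.sq_sqrt (by linarith)
  obtain ⟨c, hc⟩ : ∃ c, c = Dir.scos G D u y x := ⟨_, rfl⟩
  obtain ⟨d, hd⟩ : ∃ d, d = Dir.scos G D u x y := ⟨_, rfl⟩
  obtain ⟨q, hq⟩ : ∃ q, q = ijac G D x y := ⟨_, rfl⟩
  have e : (s * r) ^ 2 / 2 = s ^ 2 * D x y := by rw [mul_pow, hr2]; ring
  have hsym : sym n w (s * r) c d = 2 +
      kernS n 0 (((n : ℝ) - 1)) w (s ^ 2 * D x y) (s * (c * r)) d +
      kernS n 0 (((n : ℝ) - 1)) w (s ^ 2 * D x y) (s * (d * r)) c := by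
    simp only [sym, e]; ring_nf
  have hgain := hG (s * r) c d ⟨mul_nonneg hs.le (hr ▸ Real.sqrt_nonneg _), hr ▸ hT⟩
    (hc ▸ scos_mem_Icc h u y x) (hd ▸ scos_mem_Icc h u x y)
  have wx := hwpos _ _ (mul_nonneg (sq_nonneg s) hD0) (sq_dist_arg h u s x y)
  have wy := hwpos _ _ (mul_nonneg (sq_nonneg s) (h.dist_nonneg y x)) (sq_dist_arg h u s y x)
  have hxy : D y x = D x y := Sharp.dist_symm h y x
  rw [hxy, ← hr, ← hd] at wy
  rw [← hr, ← hc] at wx
  have hq0 : 0 < q := hq ▸ ijac_pos h x y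
  have hq1 : q ≤ 1 := hq ▸ ijac_le_one h x y
  obtain ⟨A, hA⟩ : ∃ A, A = d ^ 2 * excess G D x y *
      w (s ^ 2 * D x y, s * (c * r)) := ⟨_, rfl⟩
  obtain ⟨B, hB⟩ : ∃ B, B = c ^ 2 * excess G D y x *
      w (s ^ 2 * D x y, s * (d * r)) := ⟨_, rfl⟩
  have hAB : gainW w (s * r) c d * (1 - q) ≤ A + B := by
    rcases eq_or_lt_of_le hD0 with h0 | h0
    · have hz : c = 0 ∧ d = 0 := by
        constructor
        · rw [hc]; simp [Dir.scos, hxy, ← h0]
        · rw [hd]; simp [Dir.scos, ← h0]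
      simp [gainW, hA, hB, hz.1, hz.2]
    have hr0 : 0 < r := hr ▸ Real.sqrt_pos.2 (by linarith)
    have X := excess_nonneg h x y
    have Y := excess_nonneg h y x
    have g := Relax.gain h hn x y
    rw [← hq] at g
    have hA0 : 0 ≤ A := hA ▸ mul_nonneg (mul_nonneg (sq_nonneg _) X) wx.le
    have hB0 : 0 ≤ B := hB ▸ mul_nonneg (mul_nonneg (sq_nonneg _) Y) wy.le
    have eW : gainW w (s * r) c d = 2 * |c * d| *
        Real.sqrt (w (s ^ 2 * D x y, s * (c * r)) * w (s ^ 2 * D x y, s * (d * r))) := by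
      simp only [gainW, e]
      ring_nf
    refine le_of_pow_le_pow_left₀ two_ne_zero (add_nonneg hA0 hB0) ?_
    rw [eW, mul_pow, mul_pow, mul_pow, sq_abs, Real.sq_sqrt (mul_pos wx wy).le]
    obtain ⟨W1, hW1⟩ : ∃ W1, W1 = w (s ^ 2 * D x y, s * (c * r)) := ⟨_, rfl⟩
    obtain ⟨W2, hW2⟩ : ∃ W2, W2 = w (s ^ 2 * D x y, s * (d * r)) := ⟨_, rfl⟩
    rw [← hW1] at hA wx ⊢
    rw [← hW2] at hB wy ⊢
    calc 2 ^ 2 * (c * d) ^ 2 * (W1 * W2) * (1 - q) ^ 2
        ≤ 2 ^ 2 * (c * d) ^ 2 * (W1 * W2) *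
          (excess G D x y * excess G D y x) :=
          mul_le_mul_of_nonneg_left g (by positivity)
      _ = 4 * (A * B) := by rw [hA, hB]; ring
      _ ≤ (A + B) ^ 2 := by nlinarith [sq_nonneg (A - B)]
  rw [kerQ, ← hr, ← hc, ← hd, ← hq, rowG, rowG, hxy, ← hr, ← hc, ← hd, ← hA, ← hB]
  obtain ⟨sy, hsy⟩ : ∃ z, z = sym n w (s * r) c d := ⟨_, rfl⟩
  rw [← hsy] at hsym hgain ⊢
  have h1 : (1 - q) * (-(gainW w (s * r) c d) - ε) ≤ (1 - q) * sy :=
    mul_le_mul_of_nonneg_left (by linarith) (sub_nonneg.2 hq1)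
  have h2 : ε * q ≤ ε := mul_le_of_le_one_right hε hq1
  have h3 : (1 - q) * ε ≤ ε := mul_le_of_le_one_left hε (by linarith)
  linarith

lemma continuous_kernS (hw : ContDiff ℝ 1 w) (c : ℝ) :
    ContinuousOn (fun q : ℝ × ℝ × ℝ => kernS n 0 c w q.1 q.2.1 q.2.2) {q | 0 ≤ q.1} := by
  have hd : ∀ v : ℝ × ℝ, Continuous fun q : ℝ × ℝ × ℝ => fderiv ℝ w (q.1, q.2.1) v :=
    fun v => ((hw.continuous_fderiv one_ne_zero).comp
      (continuous_fst.prodMk (continuous_fst.comp continuous_snd))).clm_apply continuous_const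
  have w1 : Continuous fun q : ℝ × ℝ × ℝ => w (q.1, q.2.1) :=
    hw.continuous.comp (continuous_fst.prodMk (continuous_fst.comp continuous_snd))
  have a1 : Continuous fun q : ℝ × ℝ × ℝ => Dir.wa w (q.1, q.2.1) := hd (1, 0)
  have b1 : Continuous fun q : ℝ × ℝ × ℝ => Dir.wb w (q.1, q.2.1) := hd (0, 1)
  have n1 : Continuous fun q : ℝ × ℝ × ℝ => Bend.csh (2 * 0 ^ 2 * q.1) :=
    (Bend.contDiff_csh (k := 1)).continuous.comp (by fun_prop)
  have n2 : Continuous fun q : ℝ × ℝ × ℝ => 2 * Bend.cshd (2 * 0 ^ 2 * q.1) :=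
    continuous_const.mul ((Bend.contDiff_cshd (k := 1)).continuous.comp (by fun_prop))
  have c1 : ContinuousOn (fun q : ℝ × ℝ × ℝ => Bend.cfac 0 q.1) {q | 0 ≤ q.1} :=
    n1.continuousOn.div n2.continuousOn fun q hq => (Bend.sfac_pos 0 hq).ne'
  have e1 : ContinuousOn (fun q : ℝ × ℝ × ℝ => Real.sqrt (2 * q.1 - q.2.1 ^ 2) / Bend.sfac 0 q.1)
      {q | 0 ≤ q.1} :=
    (Continuous.continuousOn (by fun_prop)).div n2.continuousOn fun q hq => (Bend.sfac_pos 0 hq).ne'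
  unfold kernS
  exact ((((continuousOn_const.sub ((Continuous.continuousOn (by fun_prop)).pow 2)).add
    (c1.mul (Continuous.continuousOn (by fun_prop)))).mul w1.continuousOn).add
      (Continuous.continuousOn (by fun_prop))).sub
        ((Continuous.continuousOn (by fun_prop : Continuous fun q : ℝ × ℝ × ℝ =>
          |Dir.wb w (q.1, q.2.1)| * |q.2.2| * Real.sqrt (1 - q.2.2 ^ 2))).mul e1) |>.sub
            (Continuous.continuousOn (by fun_prop))

lemma measurable_kernS (hw : ContDiff ℝ 1 w) (c : ℝ) :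
    Measurable fun q : ℝ × ℝ × ℝ => kernS n 0 c w (max q.1 0) q.2.1 q.2.2 := by
  refine Continuous.measurable ?_
  exact (continuous_kernS hw c).comp_continuous
    ((continuous_fst.max continuous_const).prodMk continuous_snd) fun q => le_max_right q.1 0

lemma measurable_rowG (h : IsCH G D) (hu : ContDiff ℝ 1 u) (hw : ContDiff ℝ 1 w) :
    Measurable fun z : (Fin n → ℝ) × (Fin n → ℝ) => rowG G D u w s z.1 z.2 := by
  have hd := measurable_scos h hu
  have hc : Measurable fun z : (Fin n → ℝ) × (Fin n → ℝ) => Dir.scos G D u z.2 z.1 := by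
    simpa only [Function.comp_def, Prod.fst_swap, Prod.snd_swap] using
      hd.comp (measurable_swap (α := Fin n → ℝ) (β := Fin n → ℝ))
  have hr : Measurable fun z : (Fin n → ℝ) × (Fin n → ℝ) =>
      s * (Dir.scos G D u z.2 z.1 * Real.sqrt (2 * D z.1 z.2)) :=
    (hc.fun_mul (h.continuous_D.measurable.const_mul 2).sqrt).const_mul s
  have hp := h.continuous_D.measurable.const_mul (s ^ 2)
  have h1 := (measurable_kernS (n := n) hw (((n : ℝ) - 1))).comp (hp.prodMk (hr.prodMk hd))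
  have e : ∀ z : (Fin n → ℝ) × (Fin n → ℝ), max (s ^ 2 * D z.1 z.2) 0 = s ^ 2 * D z.1 z.2 :=
    fun z => max_eq_left (mul_nonneg (sq_nonneg s) (h.dist_nonneg _ _))
  have h2 : Measurable fun z : (Fin n → ℝ) × (Fin n → ℝ) =>
      w (s ^ 2 * D z.1 z.2, s * (Dir.scos G D u z.2 z.1 * Real.sqrt (2 * D z.1 z.2))) :=
    hw.continuous.measurable.comp (hp.prodMk hr)
  simp only [Function.comp_def, e] at h1
  exact h1.add (((hd.pow_const 2).mul (continuous_excess h).measurable).mul h2)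

lemma bound_arith {k e v d C₁ C₂ C₃ : ℝ} (hd : |d| ≤ 1) (h₁ : ‖k‖ ≤ C₁) (h₂ : ‖v‖ ≤ C₂)
    (h₃ : ‖e‖ ≤ C₃) : ‖k + d ^ 2 * e * v‖ ≤ C₁ + max C₃ 0 * max C₂ 0 := by
  refine (norm_add_le _ _).trans (add_le_add h₁ ?_)
  rw [norm_mul, norm_mul, Real.norm_eq_abs (_ ^ 2), abs_of_nonneg (sq_nonneg _)]
  exact mul_le_mul ((mul_le_of_le_one_left (norm_nonneg _) ((sq_le_one_iff_abs_le_one _).2 hd)).trans
    (h₃.trans (le_max_left _ _))) (h₂.trans (le_max_left _ _)) (norm_nonneg _) (le_max_right _ _)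

lemma exists_rowG_bound (h : IsCH G D) (hw : ContDiff ℝ 1 w) (hs : 0 ≤ s) :
    ∃ C, ∀ x y : Fin n → ℝ, D o x ≤ R → D o y ≤ R → ‖rowG G D u w s x y‖ ≤ C := by
  have hK := h.proper o R
  obtain ⟨B, hB⟩ := (hK.prod hK).bddAbove_image h.continuous_D.continuousOn
  obtain ⟨B', hB'⟩ : ∃ B', B' = max B 0 := ⟨_, rfl⟩
  obtain ⟨S, hS⟩ : ∃ S, S = s * Real.sqrt (2 * B') := ⟨_, rfl⟩
  have hcpt := (isCompact_Icc (a := (0 : ℝ)) (b := s ^ 2 * B')).prod
    ((isCompact_Icc (a := -S) (b := S)).prod (isCompact_Icc (a := (-1 : ℝ)) (b := 1)))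
  obtain ⟨C₁, hC₁⟩ := hcpt.exists_bound_of_continuousOn
      ((continuous_kernS (n := n) hw (((n : ℝ) - 1))).mono fun q hq => hq.1.1)
  obtain ⟨C₂, hC₂⟩ := hcpt.exists_bound_of_continuousOn
    ((hw.continuous.comp (continuous_fst.prodMk (continuous_fst.comp continuous_snd))).continuousOn
      (f := fun q : ℝ × ℝ × ℝ => w (q.1, q.2.1)))
  obtain ⟨C₃, hC₃⟩ := (hK.prod hK).exists_bound_of_continuousOn
    (continuous_excess h).continuousOn
  refine ⟨C₁ + max C₃ 0 * max C₂ 0, fun x y hx hy => ?_⟩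
  have d1 : D x y ≤ B' := (hB ⟨(x, y), ⟨hx, hy⟩, rfl⟩).trans (hB' ▸ le_max_left _ _)
  have hm : (s ^ 2 * D x y, s * (Dir.scos G D u y x * Real.sqrt (2 * D x y)),
      Dir.scos G D u x y) ∈ Icc (0 : ℝ) (s ^ 2 * B') ×ˢ (Icc (-S) S ×ˢ Icc (-1 : ℝ) 1) := by
    refine ⟨⟨mul_nonneg (sq_nonneg s) (h.dist_nonneg x y),
      mul_le_mul_of_nonneg_left d1 (sq_nonneg s)⟩, abs_le.1 ?_, scos_mem_Icc h u _ _⟩
    rw [abs_mul, abs_mul, abs_of_nonneg hs, abs_of_nonneg (Real.sqrt_nonneg _), hS]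
    exact mul_le_mul_of_nonneg_left ((mul_le_of_le_one_left (Real.sqrt_nonneg _)
      (Dir.scos_mem h u _ _)).trans (Real.sqrt_le_sqrt (by linarith))) hs
  have b1 := hC₁ _ hm
  have b2 := hC₂ _ hm
  have b3 := hC₃ (x, y) ⟨hx, hy⟩
  rw [rowG]
  exact bound_arith (Dir.scos_mem h u x y) b1 b2 b3

/-- Changing the mean curvature of the signed kernel. -/
lemma kernS_change (b H H' : ℝ) (w : ℝ × ℝ → ℝ) (a σ d : ℝ) :
    kernS n b H w a σ d =
      kernS n b H' w a σ d + (H' - H) * d * (Real.sqrt (2 * a) * w (a, σ)) := by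
  simp only [kernS]; ring

/-- The row of the kernel under the exact density. -/
lemma rowG_mul_le (h : IsCH G D) (hs : 0 < s) (hw : ContDiff ℝ 1 w)
    (hwpos : ∀ p q, 0 ≤ p → q ^ 2 ≤ 2 * p → 0 < w (p, q)) {hh C : ℝ} (x y : Fin n → ℝ)
    (hC : Real.sqrt (2 * D x y) *
      w (s ^ 2 * D x y, s * (Dir.scos G D u y x * Real.sqrt (2 * D x y))) ≤ C) :
    rowG G D u w s x y * conorm G y (cd u y) ≤
      rowDensS G D hh x (Dir.weight G D (scaled w s) x (dirCov G u x)) y (cd u y) +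
        |hh - ((n : ℝ) - 1) * s| * C * conorm G y (cd u y) := by
  have hws : ContDiff ℝ 1 (scaled w s) :=
    hw.comp (by fun_prop : ContDiff ℝ 1 fun z : ℝ × ℝ => (s ^ 2 * z.1, s * z.2))
  have hW : 0 < w (s ^ 2 * D x y, s * (Dir.scos G D u y x * Real.sqrt (2 * D x y))) :=
    hwpos _ _ (mul_nonneg (sq_nonneg s) (h.dist_nonneg x y)) (sq_dist_arg h u s x y)
  have e0 : scaled w s (D x y, Dir.side G D x (dirCov G u x) y) =
      w (s ^ 2 * D x y, s * (Dir.scos G D u y x * Real.sqrt (2 * D x y))) := by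
    rw [scaled, side_dirCov h]
  have h1 := Relax.kernS_le_rowDensS h (Bend.bendCH_zero h) u hws (conorm_dirCov_le h u x) hh y (e0 ▸ hW.le)
  rw [e0, side_dirCov h, excessB_flat] at h1
  have h2 : rowG G D u w s x y ≤ kernS n 0 hh (scaled w s) (D x y)
        (Dir.scos G D u y x * Real.sqrt (2 * D x y)) (Dir.scos G D u x y) +
      Dir.scos G D u x y ^ 2 * excess G D x y *
        w (s ^ 2 * D x y, s * (Dir.scos G D u y x * Real.sqrt (2 * D x y))) +
      |hh - ((n : ℝ) - 1) * s| * C := by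
    have e1 := kernS_scaled (n := n) hw hs.le (((n : ℝ) - 1)) (D x y)
      (Dir.scos G D u y x * Real.sqrt (2 * D x y)) (Dir.scos G D u x y)
    rw [rowG, ← e1, Relax.kernS_change 0 (((n : ℝ) - 1) * s) hh, scaled]
    have h0 := mul_nonneg (Real.sqrt_nonneg (2 * D x y)) hW.le
    have hd : (hh - ((n : ℝ) - 1) * s) * Dir.scos G D u x y ≤ |hh - ((n : ℝ) - 1) * s| :=
      (le_abs_self _).trans (by
        rw [abs_mul]; exact mul_le_of_le_one_right (abs_nonneg _) (Dir.scos_mem h u x y))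
    have := (mul_le_mul_of_nonneg_right hd h0).trans
      (mul_le_mul_of_nonneg_left hC (abs_nonneg _))
    linarith
  have h3 := mul_le_mul_of_nonneg_right h2 (conorm_nonneg y (cd u y) : 0 ≤ conorm G y (cd u y))
  refine h3.trans ?_
  rw [add_mul]
  exact add_le_add h1 le_rfl

/-- The exact row bounds the row of the kernel; the mean curvature may be slightly off. -/
theorem rowG_integral_le (h : IsCH G D) (hn : 0 < n) (hs : 0 < s)
    (hw : ContDiff ℝ 1 w) (hwpos : ∀ p q, 0 ≤ p → q ^ 2 ≤ 2 * p → 0 < w (p, q))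
    (hu : Comp {y | D o y ≤ R} u) {hh C : ℝ}
    (hC : ∀ x y, D o x ≤ R → D o y ≤ R → Real.sqrt (2 * D x y) *
      w (s ^ 2 * D x y, s * (Dir.scos G D u y x * Real.sqrt (2 * D x y))) ≤ C)
    {x : Fin n → ℝ} (hx : D o x ≤ R)
    (hrow : rowIntegS G D hh x (Dir.weight G D (scaled w s) x (dirCov G u x)) u ≤ κ) :
    ∫ y, rowG G D u w s x y ∂Sharp.pm G u ≤
      κ + |hh - ((n : ℝ) - 1) * s| * C * per G u := by
  have hK := h.proper o R
  obtain ⟨δ, hδ⟩ : ∃ δ, δ = |hh - ((n : ℝ) - 1) * s| := ⟨_, rfl⟩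
  rw [← hδ]
  have hws : ContDiff ℝ 1 (scaled w s) :=
    hw.comp (by fun_prop : ContDiff ℝ 1 fun z : ℝ × ℝ => (s ^ 2 * z.1, s * z.2))
  obtain ⟨Cb, hCb⟩ := exists_rowG_bound (o := o) (R := R) (u := u) h hw hs.le
  have hm2 := measurable_rowG (s := s) h hu.1 hw
  have hm3 := hm2.comp (measurable_prodMk_left (β := Fin n → ℝ) (x := x))
  have hm : Measurable fun y => rowG G D u w s x y := by
    simpa only [Function.comp_def] using hm3
  have hout : ∀ y, ¬D o y ≤ R → cd u y = 0 := fun y hy =>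
    cd_eq_zero_of_notMem fun hs' => hy (hu.2.1 hs')
  have i0 : Integrable fun y => conorm G y (cd u y) * dens G y := by
    simpa using h.integrable_mul_conorm hK hu (continuous_const (y := (1 : ℝ)))
  have i1 : Integrable fun y => rowG G D u w s x y * (conorm G y (cd u y) * dens G y) := by
    refine (i0.const_mul Cb).mono' (hm.mul ((h.continuous_conorm_cd hu.1).measurable.mul
      h.continuous_dens.measurable)).aestronglyMeasurable (Eventually.of_forall fun y => ?_)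
    have h0 : 0 ≤ conorm G y (cd u y) * dens G y := mul_nonneg (conorm_nonneg _ _) (h.dens_pos y).le
    rw [norm_mul, Real.norm_of_nonneg h0]
    by_cases hy : D o y ≤ R
    · exact mul_le_mul_of_nonneg_right (hCb x y hx hy) h0
    · simp [hout y hy, conorm_zero]
  have hi2 := integrable_rowDensS h hn hK hu hh x (W := Dir.weight G D (scaled w s) x (dirCov G u x))
    (Dir.contDiff_weight h hws x _)
  have hpt : ∀ y, rowG G D u w s x y * (conorm G y (cd u y) * dens G y) ≤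
      rowDensS G D hh x (Dir.weight G D (scaled w s) x (dirCov G u x)) y (cd u y) * dens G y +
        δ * C * (conorm G y (cd u y) * dens G y) := by
    intro y
    by_cases hy : D o y ≤ R
    · rw [hδ, ← mul_assoc, ← mul_assoc, ← add_mul]
      exact mul_le_mul_of_nonneg_right (rowG_mul_le h hs hw hwpos x y (hC x y hx hy))
        (h.dens_pos y).le
    · simp [hout y hy, conorm_zero, rowDensS, varX_zero, pairing]
  calc ∫ y, rowG G D u w s x y ∂Sharp.pm G u
      = ∫ y, rowG G D u w s x y * (conorm G y (cd u y) * dens G y) := Sharp.integral_pm h hu.1 _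
    _ ≤ ∫ y, (rowDensS G D hh x (Dir.weight G D (scaled w s) x (dirCov G u x)) y (cd u y) * dens G y +
        δ * C * (conorm G y (cd u y) * dens G y)) :=
        integral_mono i1 (hi2.add (i0.const_mul _)) hpt
    _ ≤ κ + δ * C * per G u := by
        rw [integral_add hi2 (i0.const_mul _), integral_const_mul, per]
        exact add_le_add hrow le_rfl

/-- The pair integral is at most twice the square of the perimeter plus the rows. -/
theorem kerQ_le_rows (h : IsCH G D) (hn : 0 < n) (hs : 0 < s)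
    (hw : ContDiff ℝ 1 w) (hwpos : ∀ p q, 0 ≤ p → q ^ 2 ≤ 2 * p → 0 < w (p, q))
    (hu : Comp {y | D o y ≤ R} u) (hε : 0 ≤ ε)
    (hT : ∀ x y, D o x ≤ R → D o y ≤ R → s * Real.sqrt (2 * D x y) ≤ T)
    (hG : GainOK n ε T w)
    (hrow : ∀ x, D o x ≤ R → ∫ y, rowG G D u w s x y ∂Sharp.pm G u ≤ κ) :
    ∫ z : (Fin n → ℝ) × (Fin n → ℝ), kerQ G D u w s ε z.1 z.2
        ∂((Sharp.pm G u).prod (Sharp.pm G u)) ≤
      (2 + 2 * ε) * per G u ^ 2 + 2 * (κ * per G u) := by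
  have hK := h.proper o R
  have := Sharp.isFiniteMeasure_pm h hK hu
  obtain ⟨μ, hμ⟩ : ∃ μ, μ = Sharp.pm G u := ⟨_, rfl⟩
  have : IsFiniteMeasure μ := hμ ▸ this
  have hν : ∀ᵐ y ∂μ, y ∈ {y | D o y ≤ R} := hμ ▸ Sharp.ae_mem_pm h hK hu
  have hKi := integrable_kerQ (ε := ε) h hu hw hs.le
  rw [← hμ] at hKi ⊢
  obtain ⟨C, hC⟩ := exists_rowG_bound (o := o) (R := R) (u := u) h hw hs.le
  obtain ⟨F, hF⟩ : ∃ F : (Fin n → ℝ) × (Fin n → ℝ) → ℝ,
      F = fun z => rowG G D u w s z.1 z.2 := ⟨_, rfl⟩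
  have hFm : Measurable F := hF ▸ measurable_rowG h hu.1 hw
  have hae : ∀ᵐ z ∂μ.prod μ, z.1 ∈ {y | D o y ≤ R} ∧ z.2 ∈ {y | D o y ≤ R} :=
    (Measure.quasiMeasurePreserving_fst.ae hν).and (Measure.quasiMeasurePreserving_snd.ae hν)
  have hFi : Integrable F (μ.prod μ) := Integrable.of_bound hFm.aestronglyMeasurable C
    (hae.mono fun z hz => by rw [hF]; exact hC _ _ hz.1 hz.2)
  have hFs : Integrable (fun z => F z.swap) (μ.prod μ) := hFi.swap
  have hP : μ.real univ = per G u := by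
    rw [hμ, measureReal_def]; exact Sharp.pm_univ h hK hu
  have e2 : ∫ z, F z ∂μ.prod μ ≤ κ * per G u := by
    rw [integral_prod _ hFi, ← hP]
    refine (integral_mono_ae hFi.integral_prod_left (integrable_const κ)
      (hν.mono fun x hx => ?_)).trans (le_of_eq (by rw [integral_const, smul_eq_mul, mul_comm]))
    subst hμ hF
    exact hrow x hx
  refine (integral_mono_ae hKi ((integrable_const (2 + 2 * ε)).add (hFi.fun_add hFs))
    (hae.mono fun z hz => ?_)).trans ?_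
  · simp only [Pi.add_apply, hF, Prod.fst_swap, Prod.snd_swap, ← add_assoc]
    exact kerQ_le h hs hn hwpos hε z.1 z.2 (hT _ _ hz.1 hz.2) hG
  · simp only [Pi.add_apply]
    rw [integral_add (integrable_const _) (hFi.fun_add hFs), integral_const,
      integral_add hFi hFs, integral_prod_swap F, ← univ_prod_univ, measureReal_prod_prod, hP,
      smul_eq_mul]
    linarith

end Vale.Agent.P219.CH.Flat
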