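import Vale.Agent.P219.Flat.Profile

/-!
# P219: a flat relaxed certificate from a profile quartic in the cosine

The weight on the ray is `(P0 r + c ^ 2 P2 r + c ^ 4 P4 r) / r ^ 9`, times
`(r ^ 2 / (r ^ 2 + δ ^ 2)) ^ 9`, plus a small constant. The gain row keeps the exact product of the
sines; the other rows bound it by the mean of the squares.
-/

noncomputable section

open Set Filter Topology MeasureTheory

namespace Vale.Agent.P219.CH.Flat.Quart

open Relax (kernS)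
open Relax.Profile2D (len continuous_len)
open Eight (rho2 rho2_pos rho2_of_gt contDiff_rho2)
open Relax.Five (sqrt_two_half one_sub_sq_nonneg)

/-- Radial functions with derivatives. -/
structure Prof where
  P0 : ℝ → ℝ
  D0 : ℝ → ℝ
  P2 : ℝ → ℝ
  D2 : ℝ → ℝ
  P4 : ℝ → ℝ
  D4 : ℝ → ℝ

namespace Prof

/-- The derivatives are right and continuous. -/
structure Smooth (p : Prof) : Prop where
  deriv0 : ∀ r, HasDerivAt p.P0 (p.D0 r) r
  deriv2 : ∀ r, HasDerivAt p.P2 (p.D2 r) r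
  deriv4 : ∀ r, HasDerivAt p.P4 (p.D4 r) r
  cont0 : Continuous p.D0
  cont2 : Continuous p.D2
  cont4 : Continuous p.D4

variable (p : Prof)

/-- The numerator of the profile. -/
def N (r c : ℝ) : ℝ := p.P0 r + c ^ 2 * p.P2 r + c ^ 4 * p.P4 r

/-- Its derivative in the distance. -/
def dN (r c : ℝ) : ℝ := p.D0 r + c ^ 2 * p.D2 r + c ^ 4 * p.D4 r

/-- The derivative of the numerator in the square of the cosine, up to a factor. -/
def dC (r c : ℝ) : ℝ := p.P2 r + 2 * c ^ 2 * p.P4 r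

/-- `r ^ 9` times the kernel; `ac` and `ad` stand for the absolute cosines, `s` for the product of
the sines. -/
def kerG (n : ℕ) (r c d ac ad s : ℝ) : ℝ :=
  (1 - d ^ 2) * (r * p.dN r c - 8 * p.N r c) + (((n : ℝ) - 2) + d ^ 2) * p.N r c +
    2 * ac * p.dC r c * ad * s - ((n : ℝ) - 1) * d * r * p.N r c

/-- The same for the symmetrised kernel. -/
def symG (n : ℕ) (r c d s : ℝ) : ℝ :=
  2 * r ^ 9 + p.kerG n r c d |c| |d| s + p.kerG n r d c |d| |c| s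

/-- The symmetrised kernel with the product of the sines bounded by the mean of the squares. -/
def symP (n : ℕ) (r c d : ℝ) : ℝ := p.symG n r c d (1 - (c ^ 2 + d ^ 2) / 2)

/-- The symmetrised kernel with the product of the sines. -/
def symX (n : ℕ) (r c d : ℝ) : ℝ :=
  p.symG n r c d (Real.sqrt (1 - c ^ 2) * Real.sqrt (1 - d ^ 2))

lemma symP_comm (n : ℕ) (r c d : ℝ) : p.symP n r c d = p.symP n r d c := by
  simp only [symP, symG, add_comm (d ^ 2) (c ^ 2)]; ring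

lemma symX_comm (n : ℕ) (r c d : ℝ) : p.symX n r c d = p.symX n r d c := by
  simp only [symX, symG]; ring_nf

/-- The core of the weight. -/
def core (z : ℝ × ℝ) : ℝ :=
  len z ^ 4 * (len z ^ 5 * p.P0 (len z)) + z.2 ^ 2 * (len z ^ 4 * (len z ^ 3 * p.P2 (len z))) +
    z.2 ^ 4 * (len z ^ 4 * (len z * p.P4 (len z)))

/-- The weight. -/
def wOf (δ η : ℝ) (z : ℝ × ℝ) : ℝ := η + p.core z / rho2 δ z.1 ^ 9

end Prof

variable {p : Prof} {δ η r : ℝ}

lemma Prof.Smooth.contDiff_wOf (h : p.Smooth) (hδ : δ ≠ 0) (η : ℝ) :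
    ContDiff ℝ 1 (p.wOf δ η) := by
  have key : ∀ (k : ℕ) {f f' : ℝ → ℝ}, (∀ x, HasDerivAt f (f' x) x) → Continuous f' →
      ContDiff ℝ 1 fun z : ℝ × ℝ => len z ^ 4 * (len z ^ k * f (len z)) := by
    intro k f f' hf hf'
    have hfc : Continuous f := continuous_iff_continuousAt.2 fun x => (hf x).continuousAt
    exact (contDiff_len_four (fun x => (hasDerivAt_pow k x).mul (hf x))
      (show Continuous fun x => ↑k * x ^ (k - 1) * f x + x ^ k * f' x by fun_prop)).comp contDiff_fst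
  have h1 := key 1 h.deriv4 h.cont4
  simp only [pow_one] at h1
  exact contDiff_const.add ((((key 5 h.deriv0 h.cont0).add
    ((contDiff_snd.pow 2).mul (key 3 h.deriv2 h.cont2))).add ((contDiff_snd.pow 4).mul h1)).div
      (((contDiff_rho2 δ).comp contDiff_fst).pow 9) fun _ => (pow_pos (rho2_pos hδ _) 9).ne')

/-- The factor of the regularisation. -/
def damp (δ r : ℝ) : ℝ := (r ^ 2 / (r ^ 2 + δ ^ 2)) ^ 9

/-- Its derivative. -/
def damp' (δ r : ℝ) : ℝ := 18 * r ^ 17 * δ ^ 2 / (r ^ 2 + δ ^ 2) ^ 10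

lemma damp_mem (hδ : δ ≠ 0) (r : ℝ) : damp δ r ∈ Icc (0 : ℝ) 1 := by
  have : 0 < r ^ 2 + δ ^ 2 := by positivity
  exact ⟨by unfold damp; positivity, pow_le_one₀ (by positivity)
    ((div_le_one this).2 (by linarith [sq_nonneg δ]))⟩

lemma damp_mono (hδ : δ ≠ 0) {q : ℝ} (hr : 0 ≤ r) (hrq : r ≤ q) : damp δ r ≤ damp δ q := by
  refine pow_le_pow_left₀ (by positivity) ?_ 9
  rw [div_le_div_iff₀ (by positivity) (by positivity)]
  nlinarith [mul_le_mul_of_nonneg_right (pow_le_pow_left₀ hr hrq 2) (sq_nonneg δ)]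

lemma damp_loss (hδ : 0 < δ) (hr : 0 ≤ r) : (1 - damp δ r) * r ≤ 5 * δ := by
  have hs : 0 < r ^ 2 + δ ^ 2 := by positivity
  obtain ⟨x, hx⟩ : ∃ x, x = r ^ 2 / (r ^ 2 + δ ^ 2) := ⟨_, rfl⟩
  have hx0 : 0 ≤ x := hx ▸ by positivity
  have hb := one_add_mul_le_pow (show (-2 : ℝ) ≤ x - 1 by linarith) 9
  rw [add_sub_cancel] at hb
  have h1 : 1 - damp δ r ≤ 9 * (1 - x) := by
    rw [damp, ← hx]
    push_cast at hb
    linarith
  have h2 : (1 - x) * r ≤ δ / 2 := by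
    rw [hx, one_sub_div hs.ne', div_mul_eq_mul_div, div_le_iff₀ hs]
    nlinarith [mul_nonneg hδ.le (sq_nonneg (r - δ))]
  calc (1 - damp δ r) * r ≤ 9 * (1 - x) * r := mul_le_mul_of_nonneg_right h1 hr
    _ ≤ 5 * δ := by linarith

lemma hasDerivAt_damp (hδ : δ ≠ 0) (r : ℝ) : HasDerivAt (damp δ) (damp' δ r) r := by
  have hs : r ^ 2 + δ ^ 2 ≠ 0 := by positivity
  refine ((((hasDerivAt_pow 2 r).div ((hasDerivAt_pow 2 r).add_const _) hs)).pow 9).congr_deriv ?_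
  simp only [damp', Pi.div_apply]
  push_cast
  field_simp
  ring

lemma wOf_ray (hδ : δ ≠ 0) (hr : 0 < r) (s : ℝ) :
    p.wOf δ η (r ^ 2 / 2, s) = η + damp δ r * (p.N r (s / r) / r ^ 9) := by
  have hs : 0 < r ^ 2 + δ ^ 2 := by positivity
  have hρ : rho2 δ (r ^ 2 / 2) = r ^ 2 + δ ^ 2 := by
    rw [rho2_of_gt hδ (by nlinarith [sq_nonneg δ, sq_nonneg r])]; ring
  simp only [Prof.wOf, Prof.core, Prof.N, len, sqrt_two_half hr.le, hρ, damp]
  field_simp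

lemma partials_ray (h : p.Smooth) (hδ : δ ≠ 0) (hr : 0 < r) (c : ℝ) :
    r * Dir.wa (p.wOf δ η) (r ^ 2 / 2, r * c) + c * Dir.wb (p.wOf δ η) (r ^ 2 / 2, r * c) =
        damp' δ r * (p.N r c / r ^ 9) + damp δ r * ((r * p.dN r c - 9 * p.N r c) / r ^ 10) ∧
      Dir.wb (p.wOf δ η) (r ^ 2 / 2, r * c) = damp δ r * (2 * c * p.dC r c / r ^ 10) := by
  have hd : HasFDerivAt (p.wOf δ η) (fderiv ℝ (p.wOf δ η) (r ^ 2 / 2, r * c))
      (r ^ 2 / 2, r * c) :=
    ((h.contDiff_wOf hδ η).differentiable one_ne_zero _).hasFDerivAt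
  constructor
  · have h1 : HasDerivAt (fun z => p.wOf δ η (z ^ 2 / 2, z * c))
        (r * Dir.wa (p.wOf δ η) (r ^ 2 / 2, r * c) + c * Dir.wb (p.wOf δ η) (r ^ 2 / 2, r * c)) r := by
      have hz : HasDerivAt (fun z : ℝ => (z ^ 2 / 2, z * c)) (r, c) r :=
        (((hasDerivAt_pow 2 r).div_const 2).congr_deriv (by norm_num)).prodMk
          (((hasDerivAt_id r).mul_const c).congr_deriv (by simp))
      refine (hd.comp_hasDerivAt r hz).congr_deriv ?_
      have : ((r, c) : ℝ × ℝ) = r • ((1, 0) : ℝ × ℝ) + c • ((0, 1) : ℝ × ℝ) := by simp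
      rw [this, map_add, map_smul, map_smul, Dir.wa, Dir.wb, smul_eq_mul, smul_eq_mul]
    have hN : HasDerivAt (fun z => p.N z c) (p.dN r c) r :=
      ((h.deriv0 r).add ((h.deriv2 r).const_mul (c ^ 2))).add ((h.deriv4 r).const_mul (c ^ 4))
    have h2 : HasDerivAt (fun z => η + damp δ z * (p.N z c / z ^ 9))
        (damp' δ r * (p.N r c / r ^ 9) + damp δ r * ((r * p.dN r c - 9 * p.N r c) / r ^ 10)) r := by
      refine (((hasDerivAt_damp hδ r).mul
        (hN.div (hasDerivAt_pow 9 r) (pow_ne_zero 9 hr.ne'))).const_add η).congr_deriv ?_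
      push_cast
      simp only [Pi.div_apply]
      field_simp
    exact h1.unique (h2.congr_of_eventuallyEq
      (eventually_of_mem (Ioi_mem_nhds hr) fun z (hz : 0 < z) => by
        simp only [wOf_ray hδ hz, mul_div_cancel_left₀ c hz.ne']))
  · have h1 : HasDerivAt (fun s => p.wOf δ η (r ^ 2 / 2, s))
        (Dir.wb (p.wOf δ η) (r ^ 2 / 2, r * c)) (r * c) :=
      hd.comp_hasDerivAt_of_eq (r * c)
        ((hasDerivAt_const (r * c) (r ^ 2 / 2)).prodMk (hasDerivAt_id (r * c))) rfl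
    refine h1.unique ?_
    simp only [wOf_ray hδ hr, Prof.N, Prof.dC]
    have h2 : HasDerivAt (fun s => p.P0 r + (s / r) ^ 2 * p.P2 r + (s / r) ^ 4 * p.P4 r)
        (2 * c * (p.P2 r + 2 * c ^ 2 * p.P4 r) / r) (r * c) := by
      have hs := (hasDerivAt_id (r * c)).div_const r
      refine ((((hs.pow 2).mul_const (p.P2 r)).const_add (p.P0 r)).add
        ((hs.pow 4).mul_const (p.P4 r))).congr_deriv ?_
      simp only [id_eq, Nat.cast_ofNat]
      field_simp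
      ring
    refine (((h2.div_const (r ^ 9)).const_mul (damp δ r)).const_add η).congr_deriv ?_
    field_simp

variable {n : ℕ}

/-- The kernel of the weight against its polynomial bound. -/
lemma kern_lower (h : p.Smooth) (hδ : δ ≠ 0) (hr : 0 < r) {c d s : ℝ} (hC : p.dC r c ≤ 0)
    (hN : 0 ≤ p.N r c) (hd : d ∈ Icc (-1 : ℝ) 1)
    (hs : Real.sqrt (1 - d ^ 2) * Real.sqrt (1 - c ^ 2) ≤ s) :
    damp δ r * (p.kerG n r c d |c| |d| s / r ^ 9) + η * (((n : ℝ) - 1) * (1 - r * d)) ≤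
      kernS n 0 ((n : ℝ) - 1) (p.wOf δ η) (r ^ 2 / 2) (r * c) d := by
  obtain ⟨h1, h2⟩ := partials_ray (η := η) h hδ hr c
  have e2 : Real.sqrt (2 * (r ^ 2 / 2) - (r * c) ^ 2) = r * Real.sqrt (1 - c ^ 2) := by
    rw [show 2 * (r ^ 2 / 2) - (r * c) ^ 2 = r ^ 2 * (1 - c ^ 2) by ring,
      Real.sqrt_mul (sq_nonneg r), Real.sqrt_sq hr.le]
  have habs : |Dir.wb (p.wOf δ η) (r ^ 2 / 2, r * c)| =
      damp δ r * (-(2 * |c| * p.dC r c) / r ^ 10) := by
    rw [h2, abs_mul, abs_of_nonneg (damp_mem hδ r).1, abs_div, abs_of_pos (pow_pos hr 10), abs_mul,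
      abs_mul, abs_two, abs_of_nonpos hC]
    ring
  have hlin : 2 * (r ^ 2 / 2) * Dir.wa (p.wOf δ η) (r ^ 2 / 2, r * c) +
      r * c * Dir.wb (p.wOf δ η) (r ^ 2 / 2, r * c) =
      r * (r * Dir.wa (p.wOf δ η) (r ^ 2 / 2, r * c) +
        c * Dir.wb (p.wOf δ η) (r ^ 2 / 2, r * c)) := by ring
  have hcoef : 0 ≤ damp δ r * (-(2 * |c| * p.dC r c) / r ^ 9) * |d| := by
    have := (damp_mem hδ r).1
    have : 0 ≤ -(2 * |c| * p.dC r c) := by nlinarith [abs_nonneg c]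
    positivity
  have h3 := mul_le_mul_of_nonneg_left hs hcoef
  have h4 : 0 ≤ (1 - d ^ 2) * (r * (damp' δ r * (p.N r c / r ^ 9))) := by
    have : 0 ≤ damp' δ r := by unfold damp'; positivity
    exact mul_nonneg (one_sub_sq_nonneg hd) (by positivity)
  simp only [kernS, Bend.cfac_zero, sfac_flat, div_one]
  rw [hlin, h1, habs, e2, sqrt_two_half hr.le, wOf_ray hδ hr, mul_div_cancel_left₀ c hr.ne']
  have ek : p.kerG n r c d |c| |d| s / r ^ 9 = (1 - d ^ 2) * (r * ((r * p.dN r c - 9 * p.N r c) / r ^ 10)) +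
      ((n : ℝ) - 1) * (p.N r c / r ^ 9) - -(2 * |c| * p.dC r c) / r ^ 9 * |d| * s -
      ((n : ℝ) - 1) * r * d * (p.N r c / r ^ 9) := by
    rw [Prof.kerG]
    field_simp
    ring
  have e9 : -(2 * |c| * p.dC r c) / r ^ 9 = r * (-(2 * |c| * p.dC r c) / r ^ 10) := by field_simp
  rw [ek]
  rw [e9] at h3 ⊢
  linarith

/-- The symmetrised kernel of the weight against its bound. -/
lemma sym_lower (hn : 1 ≤ n) (h : p.Smooth) (hδ : δ ≠ 0) (hη : 0 ≤ η) {B : ℝ}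
    (hr : r ∈ Ioc 0 B) (hC : ∀ x ∈ Icc (-1 : ℝ) 1, p.dC r x ≤ 0)
    (hN : ∀ x ∈ Icc (-1 : ℝ) 1, 0 ≤ p.N r x) {c d : ℝ} (hc : c ∈ Icc (-1 : ℝ) 1)
    (hd : d ∈ Icc (-1 : ℝ) 1) :
    damp δ r * (p.symX n r c d / r ^ 9) - η * (2 * n * B) ≤ sym n (p.wOf δ η) r c d := by
  have k1 := kern_lower (n := n) (η := η) h hδ hr.1 (hC c hc) (hN c hc) hd
    (le_of_eq (mul_comm _ _) : _ ≤ Real.sqrt (1 - c ^ 2) * Real.sqrt (1 - d ^ 2))
  have k2 := kern_lower (n := n) (η := η) h hδ hr.1 (hC d hd) (hN d hd) hc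
    (le_refl (Real.sqrt (1 - c ^ 2) * Real.sqrt (1 - d ^ 2)))
  have hn1 : (1 : ℝ) ≤ n := by exact_mod_cast hn
  have hx : ∀ x ∈ Icc (-1 : ℝ) 1, -((n : ℝ) * B) ≤ ((n : ℝ) - 1) * (1 - r * x) := fun x hx => by
    have h2 : r * x ≤ B := le_trans (mul_le_of_le_one_right hr.1.le hx.2) hr.2
    have h4 : 0 ≤ B := hr.1.le.trans hr.2
    nlinarith [mul_le_mul_of_nonneg_left h2 (sub_nonneg.2 hn1)]
  have h3 := mul_le_mul_of_nonneg_left (add_le_add (hx d hd) (hx c hc)) hη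
  have h5 := (damp_mem hδ r).2
  obtain ⟨s, hs⟩ : ∃ s, s = Real.sqrt (1 - c ^ 2) * Real.sqrt (1 - d ^ 2) := ⟨_, rfl⟩
  rw [← hs] at k1 k2
  have e : p.symX n r c d / r ^ 9 =
      2 + p.kerG n r c d |c| |d| s / r ^ 9 + p.kerG n r d c |d| |c| s / r ^ 9 := by
    have := (pow_pos hr.1 9).ne'
    rw [Prof.symX, Prof.symG, ← hs, add_div, add_div, mul_div_assoc, div_self this, mul_one]
  rw [sym, e]
  linarith

lemma wOf_pos (hδ : δ ≠ 0) (hη : 0 < η)
    (hN : ∀ r, 0 < r → ∀ c ∈ Icc (-1 : ℝ) 1, 0 ≤ p.N r c)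
    {a q : ℝ} (ha : 0 ≤ a) (hq : q ^ 2 ≤ 2 * a) : 0 < p.wOf δ η (a, q) := by
  rcases ha.eq_or_lt with h | h
  · subst h
    simp [Prof.wOf, Prof.core, len, hη]
  obtain ⟨r, hr⟩ : ∃ r, r = Real.sqrt (2 * a) := ⟨_, rfl⟩
  have hr0 : 0 < r := hr ▸ Real.sqrt_pos.2 (by linarith)
  have har : r ^ 2 / 2 = a := by rw [hr, Real.sq_sqrt (by linarith)]; ring
  have hq1 : q / r ∈ Icc (-1 : ℝ) 1 := by
    rw [mem_Icc, le_div_iff₀ hr0, div_le_one hr0]
    constructor <;> nlinarith [sq_nonneg (q - r), sq_nonneg (q + r)]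
  rw [← har, wOf_ray hδ hr0]
  exact add_pos_of_pos_of_nonneg hη
    (mul_nonneg (damp_mem hδ r).1 (div_nonneg (hN r hr0 _ hq1) (pow_nonneg hr0.le 9)))

lemma gain_lower (hδ : δ ≠ 0) (hη : 0 ≤ η) (hr : 0 < r) {c d : ℝ} (hc : 0 ≤ p.N r c)
    (hd : 0 ≤ p.N r d) :
    damp δ r * (2 * |c * d| * Real.sqrt (p.N r c * p.N r d) / r ^ 9) ≤
      gainW (p.wOf δ η) r c d := by
  obtain ⟨P, hP⟩ : ∃ P, P = damp δ r / r ^ 9 := ⟨_, rfl⟩
  have hP0 : 0 ≤ P := hP ▸ div_nonneg (damp_mem hδ r).1 (pow_nonneg hr.le 9)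
  have hw : ∀ x : ℝ, p.wOf δ η (r ^ 2 / 2, r * x) = η + P * p.N r x := fun x => by
    rw [wOf_ray hδ hr, mul_div_cancel_left₀ x hr.ne', hP]
    ring
  have h1 : P * Real.sqrt (p.N r c * p.N r d) ≤
      Real.sqrt (p.wOf δ η (r ^ 2 / 2, r * c) * p.wOf δ η (r ^ 2 / 2, r * d)) := by
    refine Real.le_sqrt_of_sq_le ?_
    rw [hw, hw, mul_pow, Real.sq_sqrt (mul_nonneg hc hd)]
    nlinarith [mul_nonneg (mul_nonneg hη hP0) hc, mul_nonneg (mul_nonneg hη hP0) hd,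
      mul_nonneg hη hη]
  calc damp δ r * (2 * |c * d| * Real.sqrt (p.N r c * p.N r d) / r ^ 9)
      = 2 * |c * d| * (P * Real.sqrt (p.N r c * p.N r d)) := by rw [hP]; ring
    _ ≤ _ := mul_le_mul_of_nonneg_left h1 (by positivity)

lemma Prof.symP_le_symX_of (p : Prof) {c d : ℝ} (hc : c ∈ Icc (-1 : ℝ) 1)
    (hd : d ∈ Icc (-1 : ℝ) 1) (hC : p.dC r c ≤ 0) (hD : p.dC r d ≤ 0) :
    p.symP n r c d ≤ p.symX n r c d := by
  have h := prod_sqrt_le hd hc
  have hcd : 0 ≤ |c| * |d| := mul_nonneg (abs_nonneg c) (abs_nonneg d)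
  have := mul_nonpos_of_nonneg_of_nonpos (mul_nonneg hcd (sub_nonneg.2 h)) (add_nonpos hC hD)
  simp only [Prof.symP, Prof.symX, Prof.symG, Prof.kerG]
  linarith

/-- The pointwise facts of a profile, all polynomial when the profile is. -/
structure Facts (n : ℕ) (a : ℝ → ℝ) (β : ℝ) (p : Prof) : Prop where
  rim : ∀ r, 0 < r → 0 ≤ p.N r 1
  slope : ∀ r, 0 < r → p.P2 r ≤ 0 ∧ p.P2 r + 2 * p.P4 r ≤ 0
  gain : ∀ r, 0 < r → ∀ c d, 0 ≤ c → c ≤ d → d ≤ 1 →
    0 ≤ p.symX n r c d + 2 * (c * d) * p.N r d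
  mixed : ∀ r, 0 < r → ∀ c ∈ Icc (0 : ℝ) 1, ∀ d ∈ Icc (0 : ℝ) 1,
    2 * (c * d) * p.N r 0 ≤ p.symP n r c (-d)
  outward : ∀ r, 0 < r → ∀ c ∈ Icc (0 : ℝ) 1, ∀ d ∈ Icc (0 : ℝ) 1,
    0 ≤ p.symP n r (-c) (-d)
  mono : MonotoneOn (fun r => r ^ (n - 10) * p.P0 r) (Ioi 0)
  pair : ∀ r, 0 < r → ∀ c ∈ Ioc (0 : ℝ) 1, ∀ d ∈ Ioc (0 : ℝ) 1,
    a c * d + a d * c + 2 * β * (c * d) * r ≤ r ^ (n - 10) * p.symP n r c d

namespace Facts

variable {a : ℝ → ℝ} {β : ℝ}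

lemma dC_nonpos (hf : Facts n a β p) (hr : 0 < r) {c : ℝ} (hc : c ∈ Icc (-1 : ℝ) 1) :
    p.dC r c ≤ 0 := by
  obtain ⟨h1, h2⟩ := hf.slope r hr
  have := mul_nonpos_of_nonneg_of_nonpos (one_sub_sq_nonneg hc) h1
  have := mul_nonpos_of_nonneg_of_nonpos (sq_nonneg c) h2
  simp only [Prof.dC]
  linarith

lemma N_anti (hf : Facts n a β p) (hr : 0 < r) {c d : ℝ} (h : c ^ 2 ≤ d ^ 2) (hd : d ^ 2 ≤ 1) :
    p.N r d ≤ p.N r c := by
  obtain ⟨h1, h2⟩ := hf.slope r hr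
  have h3 : 2 * p.P2 r + 2 * (c ^ 2 + d ^ 2) * p.P4 r ≤ 0 := by
    have := mul_nonpos_of_nonneg_of_nonpos (show 0 ≤ 2 - (c ^ 2 + d ^ 2) by linarith) h1
    have := mul_nonpos_of_nonneg_of_nonpos (add_nonneg (sq_nonneg c) (sq_nonneg d)) h2
    linarith
  have := mul_nonpos_of_nonneg_of_nonpos (sub_nonneg.2 h) h3
  simp only [Prof.N]
  linarith

lemma N_nonneg (hf : Facts n a β p) (hr : 0 < r) {c : ℝ} (hc : c ∈ Icc (-1 : ℝ) 1) :
    0 ≤ p.N r c := by
  refine (hf.rim r hr).trans (hf.N_anti hr ?_ (by norm_num))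
  nlinarith [hc.1, hc.2]

lemma symP_le_symX (hf : Facts n a β p) (hr : 0 < r) {c d : ℝ} (hc : c ∈ Icc (-1 : ℝ) 1)
    (hd : d ∈ Icc (-1 : ℝ) 1) : p.symP n r c d ≤ p.symX n r c d :=
  p.symP_le_symX_of hc hd (hf.dC_nonpos hr hc) (hf.dC_nonpos hr hd)

lemma gain_all (hf : Facts n a β p) (hr : 0 < r) {c d : ℝ} (hc : c ∈ Icc (-1 : ℝ) 1)
    (hd : d ∈ Icc (-1 : ℝ) 1) :
    0 ≤ p.symX n r c d + 2 * |c * d| * Real.sqrt (p.N r c * p.N r d) := by
  have key : ∀ c d : ℝ, c ∈ Icc (-1 : ℝ) 1 → d ∈ Icc (-1 : ℝ) 1 → c ≤ d →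
      0 ≤ p.symX n r c d + 2 * |c * d| * Real.sqrt (p.N r c * p.N r d) := by
    intro c d hc hd hcd
    have hg : 0 ≤ 2 * |c * d| * Real.sqrt (p.N r c * p.N r d) := by positivity
    have hX := hf.symP_le_symX hr hc hd
    have h0 := hf.N_nonneg hr (show (0 : ℝ) ∈ Icc (-1 : ℝ) 1 from ⟨by norm_num, by norm_num⟩)
    rcases le_or_gt 0 c with hc0 | hc0
    · have hd0 : 0 ≤ d := hc0.trans hcd
      have h1 := hf.gain r hr c d hc0 hcd hd.2
      have h2 : p.N r d ≤ Real.sqrt (p.N r c * p.N r d) := by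
        refine Real.le_sqrt_of_sq_le ?_
        rw [sq]
        exact mul_le_mul_of_nonneg_right (hf.N_anti hr (pow_le_pow_left₀ hc0 hcd 2)
          (pow_le_one₀ hd0 hd.2)) (hf.N_nonneg hr hd)
      rw [abs_of_nonneg (mul_nonneg hc0 hd0)]
      linarith [mul_le_mul_of_nonneg_left h2 (mul_nonneg (zero_le_two (α := ℝ)) (mul_nonneg hc0 hd0))]
    rcases le_or_gt 0 d with hd0 | hd0
    · have h1 := hf.mixed r hr d ⟨hd0, hd.2⟩ (-c) ⟨by linarith, by linarith [hc.1]⟩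
      rw [neg_neg, p.symP_comm] at h1
      have : 0 ≤ 2 * (d * -c) * p.N r 0 := by
        have := mul_nonneg hd0 (neg_nonneg.2 hc0.le)
        positivity
      linarith
    · have h1 := hf.outward r hr (-c) ⟨by linarith, by linarith [hc.1]⟩ (-d)
        ⟨by linarith, by linarith [hd.1]⟩
      rw [neg_neg, neg_neg] at h1
      linarith
  rcases le_total c d with h | h
  · exact key c d hc hd h
  · rw [p.symX_comm, mul_comm c d, mul_comm (p.N r c)]
    exact key d c hd hc h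

lemma level_in (hf : Facts n a β p) (hr : 0 < r) {c d : ℝ} (hc : c ∈ Ioc (0 : ℝ) 1)
    (hd : d ∈ Ioc (0 : ℝ) 1) : -(2 * (c * d) * p.N r 0) ≤ p.symX n r c d := by
  have hcd : 0 ≤ 2 * (c * d) := by have := hc.1; have := hd.1; positivity
  rcases le_total c d with h | h
  · have := mul_le_mul_of_nonneg_left (hf.N_anti hr (show (0 : ℝ) ^ 2 ≤ d ^ 2 by nlinarith)
      (pow_le_one₀ hd.1.le hd.2)) hcd
    linarith [hf.gain r hr c d hc.1.le h hd.2]
  · have := mul_le_mul_of_nonneg_left (hf.N_anti hr (show (0 : ℝ) ^ 2 ≤ c ^ 2 by nlinarith)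
      (pow_le_one₀ hc.1.le hc.2)) hcd
    have h1 := hf.gain r hr d c hd.1.le h hc.2
    rw [p.symX_comm, mul_comm d c] at h1
    linarith

end Facts

/-- The certificate from a smooth profile with the facts, and the value. -/
theorem cert_of_profile [NeZero n] (hn : 10 ≤ n) (h : p.Smooth) {a : ℝ → ℝ} {β : ℝ}
    (hf : Facts n a β p) (hβ : 0 ≤ β) (hm : Measurable a) (ha : ∀ c ∈ Icc (0 : ℝ) 1, a c ≤ 0)
    (hb : ∃ B, ∀ c ∈ Icc (0 : ℝ) 1, -B ≤ a c)
    (hv : Gen.cmean n (fun c => -a c) = β / n - 1) : Cert n a β := by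
  refine ⟨hβ, hm, ha, hb, hv, ?_⟩
  intro ε T hε hT
  obtain ⟨δ, hδd⟩ : ∃ δ, δ = ε / (5 * (β + 1)) := ⟨_, rfl⟩
  obtain ⟨η, hηd⟩ : ∃ η, η = ε / (2 * n * T) := ⟨_, rfl⟩
  have hn0 : (0 : ℝ) < n := by exact_mod_cast (by omega : 0 < n)
  have hδ : 0 < δ := hδd ▸ by positivity
  have hη : 0 < η := hηd ▸ by positivity
  have hloss : η * (2 * n * T) = ε := by rw [hηd]; field_simp
  have hδβ : 5 * δ * β ≤ ε := by
    rw [hδd]
    field_simp
    linarith
  have low : ∀ r c d, r ∈ Ioc 0 T → c ∈ Icc (-1 : ℝ) 1 → d ∈ Icc (-1 : ℝ) 1 →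
      damp δ r * (p.symX n r c d / r ^ 9) ≤ sym n (p.wOf δ η) r c d + ε := fun r c d hr hc hd => by
    have := sym_lower (η := η) (show 1 ≤ n by omega) h hδ.ne' hη.le hr (fun x hx => hf.dC_nonpos hr.1 hx)
      (fun x hx => hf.N_nonneg hr.1 hx) hc hd
    rw [hloss] at this
    linarith
  have hin : ∀ {x : ℝ}, x ∈ Ioc (0 : ℝ) 1 → x ∈ Icc (-1 : ℝ) 1 ∧ -x ∈ Icc (-1 : ℝ) 1 := fun hx =>
    ⟨⟨by linarith [hx.1], hx.2⟩, by linarith [hx.2], by linarith [hx.1]⟩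
  have hpow : ∀ {r : ℝ} (X : ℝ), 0 < r → r ^ (n - 1) * (X / r ^ 9) = r ^ (n - 10) * X :=
    fun {r} X hr => by
      rw [show n - 1 = n - 10 + 9 by omega, pow_add]
      field_simp
  have lowX : ∀ r c d, r ∈ Ioc 0 T → c ∈ Icc (-1 : ℝ) 1 → d ∈ Icc (-1 : ℝ) 1 →
      damp δ r * (r ^ (n - 10) * p.symX n r c d) ≤
        r ^ (n - 1) * (sym n (p.wOf δ η) r c d + ε) := fun r c d hr hc hd => by
    rw [← hpow _ hr.1, mul_left_comm]
    exact mul_le_mul_of_nonneg_left (low r c d hr hc hd) (pow_nonneg hr.1.le _)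
  have lowP : ∀ r c d, r ∈ Ioc 0 T → c ∈ Icc (-1 : ℝ) 1 → d ∈ Icc (-1 : ℝ) 1 →
      damp δ r * (r ^ (n - 10) * p.symP n r c d) ≤
        r ^ (n - 1) * (sym n (p.wOf δ η) r c d + ε) := fun r c d hr hc hd =>
    (mul_le_mul_of_nonneg_left (mul_le_mul_of_nonneg_left (hf.symP_le_symX hr.1 hc hd)
      (pow_nonneg hr.1.le _)) (damp_mem hδ.ne' r).1).trans (lowX r c d hr hc hd)
  refine ⟨p.wOf δ η, h.contDiff_wOf hδ.ne' η,
    fun q s hq hs => wOf_pos hδ.ne' hη (fun r hr c hc => hf.N_nonneg hr hc) hq hs, ?_, ?_⟩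
  · intro r c d hr hc hd
    rcases hr.1.eq_or_lt with h0 | h0
    · subst h0
      have hsym : sym n (p.wOf δ η) 0 c d = 2 + 2 * ((n : ℝ) - 1) * η := by
        have hw : p.wOf δ η (0, 0) = η := by simp [Prof.wOf, Prof.core, len]
        simp only [sym, kernS, Bend.cfac_zero, sfac_flat, div_one, zero_pow two_ne_zero, zero_div,
          zero_mul, mul_zero, sub_zero, Real.sqrt_zero, hw, add_zero, one_mul]
        ring
      have : 0 ≤ gainW (p.wOf δ η) 0 c d := by unfold gainW; positivity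
      rw [hsym]
      have : (1 : ℝ) ≤ n := by exact_mod_cast (by omega : 1 ≤ n)
      nlinarith
    · have h1 := low r c d ⟨h0, hr.2⟩ hc hd
      have h2 := gain_lower (η := η) hδ.ne' hη.le h0 (hf.N_nonneg h0 hc) (hf.N_nonneg h0 hd)
      have h3 := mul_nonneg (damp_mem hδ.ne' r).1
        (div_nonneg (hf.gain_all h0 hc hd) (pow_nonneg h0.le 9))
      rw [add_div, mul_add] at h3
      linarith
  refine lineOK_of_pointwise hβ hε.le (fun c hc => ha c (Ioc_subset_Icc_self hc)) ?_ ?_ ?_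
  · intro r c d hr hc hd
    have hcd : 0 < c * d := mul_pos hc.1 hd.1
    have h1 := lowP r c d hr (hin hc).1 (hin hd).1
    have h2 := mul_le_mul_of_nonneg_left (hf.pair r hr.1 c hc d hd) (damp_mem hδ.ne' r).1
    have hA : a c / c + a d / d ≤ 0 :=
      add_nonpos (div_nonpos_of_nonpos_of_nonneg (ha c (Ioc_subset_Icc_self hc)) hc.1.le)
        (div_nonpos_of_nonpos_of_nonneg (ha d (Ioc_subset_Icc_self hd)) hd.1.le)
    have h3 : a c / c + a d / d + 2 * β * r - 2 * ε ≤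
        damp δ r * (a c / c + a d / d + 2 * β * r) := by
      have := mul_le_mul_of_nonneg_left (damp_loss hδ hr.1.le) hβ
      have := mul_nonpos_of_nonpos_of_nonneg hA (sub_nonneg.2 (damp_mem hδ.ne' r).2)
      linarith
    have h4 := mul_le_mul_of_nonneg_left h3 hcd.le
    have e : c * d * (a c / c + a d / d + 2 * β * r) =
        a c * d + a d * c + 2 * β * (c * d) * r := by
      have := hc.1.ne'; have := hd.1.ne'
      field_simp
    rw [mul_left_comm, e] at h4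
    rw [phi, abs_of_pos hcd, le_div_iff₀ hcd]
    linarith
  · intro r q c d e hr hrq hqT hc hd he
    have hq0 := hr.trans_le hrq
    have hcd := mul_pos hc.1 hd.1
    have hce := mul_pos hc.1 he.1
    have h1 : -(damp δ r * (2 * (r ^ (n - 10) * p.P0 r))) ≤ phi n ε (p.wOf δ η) r c d := by
      have h6 := lowX r c d ⟨hr, hrq.trans hqT⟩ (hin hc).1 (hin hd).1
      have h7 := mul_le_mul_of_nonneg_left (mul_le_mul_of_nonneg_left (hf.level_in hr hc hd)
        (pow_nonneg hr.le (n - 10))) (damp_mem hδ.ne' r).1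
      rw [phi, abs_of_pos hcd, le_div_iff₀ hcd]
      simp only [Prof.N, zero_pow two_ne_zero, zero_pow (show (4 : ℕ) ≠ 0 by norm_num), zero_mul, add_zero] at h7
      linarith
    have h2 : damp δ q * (2 * (q ^ (n - 10) * p.P0 q)) ≤ phi n ε (p.wOf δ η) q c (-e) := by
      have h6 := lowP q c (-e) ⟨hq0, hqT⟩ (hin hc).1 (hin he).2
      have h7 := mul_le_mul_of_nonneg_left (mul_le_mul_of_nonneg_left
        (hf.mixed q hq0 c (Ioc_subset_Icc_self hc) e (Ioc_subset_Icc_self he))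
        (pow_nonneg hq0.le (n - 10))) (damp_mem hδ.ne' q).1
      rw [phi, mul_neg, abs_neg, abs_of_pos hce, le_div_iff₀ hce]
      simp only [Prof.N, zero_pow two_ne_zero, zero_pow (show (4 : ℕ) ≠ 0 by norm_num), zero_mul, add_zero] at h7
      linarith
    have h0 : 0 ≤ p.P0 r := by
      simpa [Prof.N] using hf.N_nonneg hr (show (0 : ℝ) ∈ Icc (-1 : ℝ) 1 from ⟨by norm_num, by norm_num⟩)
    have := mul_le_mul (damp_mono hδ.ne' hr.le hrq)
      (mul_le_mul_of_nonneg_left (hf.mono hr hq0 hrq) (zero_le_two (α := ℝ)))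
      (by positivity) (damp_mem hδ.ne' q).1
    linarith
  · intro r c d hr hc hd
    have hS := pow_nonneg hr.1.le (n - 1)
    have hf0 := (damp_mem hδ.ne' r).1
    have m1 : 0 ≤ p.symP n r c (-d) := by
      have h1 := hf.mixed r hr.1 c (Ioc_subset_Icc_self hc) d (Ioc_subset_Icc_self hd)
      have h0 := hf.N_nonneg hr.1 (show (0 : ℝ) ∈ Icc (-1 : ℝ) 1 from ⟨by norm_num, by norm_num⟩)
      have := hc.1; have := hd.1
      have : 0 ≤ 2 * (c * d) * p.N r 0 := by positivity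
      linarith
    have m2 := hf.outward r hr.1 c (Ioc_subset_Icc_self hc) d (Ioc_subset_Icc_self hd)
    have a1 := lowP r c (-d) hr (hin hc).1 (hin hd).2
    have a2 := lowP r (-c) (-d) hr (hin hc).2 (hin hd).2
    have hp0 := pow_nonneg hr.1.le (n - 10)
    exact ⟨div_nonneg ((mul_nonneg hf0 (mul_nonneg hp0 m1)).trans a1) (abs_nonneg _),
      div_nonneg ((mul_nonneg hf0 (mul_nonneg hp0 m2)).trans a2) (abs_nonneg _)⟩

end Vale.Agent.P219.CH.Flat.Quart
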