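import Vale.Agent.P219.Relax.Poly.Bernstein

/-!
# P219: rational substitutions in checked expressions

An expression with each variable replaced by a quotient of two expressions, cleared of the
denominators, so that one check gives the sign on a box or on a half line.
-/

namespace Vale.Agent.P219.Poly.E

/-- The expression at `num i / den i`, times `den i` to the degree in each variable. -/
def homSub (num den : Fin 3 → E) : E → E
  | .k z => .k z
  | .x i => num i
  | .bar i => .add (den i) (.neg (num i))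
  | .neg p => .neg (homSub num den p)
  | .add p q =>
      .add
        (.mul (homSub num den p) (.mul (.mul
          (.pow (den 0) (deg (.add p q) 0 - deg p 0)) (.pow (den 1) (deg (.add p q) 1 - deg p 1)))
          (.pow (den 2) (deg (.add p q) 2 - deg p 2))))
        (.mul (homSub num den q) (.mul (.mul
          (.pow (den 0) (deg (.add p q) 0 - deg q 0)) (.pow (den 1) (deg (.add p q) 1 - deg q 1)))
          (.pow (den 2) (deg (.add p q) 2 - deg q 2))))
  | .mul p q => .mul (homSub num den p) (homSub num den q)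
  | .pow p n => .pow (homSub num den p) n

lemma sem_homSub {v w : Fin 3 → ℝ} {num den : Fin 3 → E}
    (h : ∀ i, sem v (num i) = w i * sem v (den i)) : ∀ p : E,
    sem v (homSub num den p) =
      sem v (den 0) ^ deg p 0 * sem v (den 1) ^ deg p 1 * sem v (den 2) ^ deg p 2 * sem w p
  | .k z => by simp [homSub, sem, deg]
  | .x i => by
      fin_cases i <;> simp [homSub, sem, deg, h] <;> ring
  | .bar i => by
      fin_cases i <;> simp [homSub, sem, deg, h] <;> ring
  | .neg p => by
      simp only [homSub, sem, deg, sem_homSub h p]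
      ring
  | .add p q => by
      obtain ⟨D, hD⟩ : ∃ D, D = deg (.add p q) := ⟨_, rfl⟩
      have hp : ∀ i, deg p i ≤ D i := fun i => hD ▸ le_max_left _ _
      have hq : ∀ i, deg q i ≤ D i := fun i => hD ▸ le_max_right _ _
      simp only [homSub, sem, sem_homSub h p, sem_homSub h q, ← hD]
      obtain ⟨a, ha⟩ : ∃ a, a = sem v (den 0) := ⟨_, rfl⟩
      obtain ⟨b, hb⟩ : ∃ b, b = sem v (den 1) := ⟨_, rfl⟩
      obtain ⟨c, hc⟩ : ∃ c, c = sem v (den 2) := ⟨_, rfl⟩
      rw [← ha, ← hb, ← hc]
      have key : ∀ (d : Fin 3 → ℕ) (S : ℝ), (∀ i, d i ≤ D i) →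
          a ^ d 0 * b ^ d 1 * c ^ d 2 * S * (a ^ (D 0 - d 0) * b ^ (D 1 - d 1) * c ^ (D 2 - d 2)) =
            a ^ D 0 * b ^ D 1 * c ^ D 2 * S := by
        intro d S hd
        rw [← Nat.add_sub_cancel' (hd 0), ← Nat.add_sub_cancel' (hd 1), ← Nat.add_sub_cancel' (hd 2)]
        simp only [pow_add, Nat.add_sub_cancel_left]
        ring
      rw [key (deg p) (sem w p) hp, key (deg q) (sem w q) hq]
      ring
  | .mul p q => by
      simp only [homSub, sem, deg, sem_homSub h p, sem_homSub h q, pow_add]
      ring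
  | .pow p n => by
      simp only [homSub, sem, deg, sem_homSub h p, mul_pow, ← pow_mul, mul_comm n]

/-- The sign at `w` from the check of the substituted expression at `v`. -/
theorem sem_nonneg_of_homSub {num den : Fin 3 → E} {p : E}
    (hc : check (homSub num den p) = true) {v w : Fin 3 → ℝ}
    (hv : ∀ i, v i ∈ Set.Icc (0 : ℝ) 1) (hd : ∀ i, 0 < sem v (den i))
    (h : ∀ i, sem v (num i) = w i * sem v (den i)) : 0 ≤ sem w p := by
  have h0 := sem_nonneg hc hv
  rw [sem_homSub h] at h0
  have := hd 0; have := hd 1; have := hd 2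
  exact nonneg_of_mul_nonneg_right h0 (by positivity)

/-- The start of an affine box `[a / q, (a + b) / q]`. -/
def affNum (a b : ℤ) (i : Fin 3) : E := .add (.k a) (.mul (.k b) (.x i))

/-- The substitution of a box in all three variables. -/
def boxNum (a b : Fin 3 → ℤ) : Fin 3 → E := fun i => affNum (a i) (b i) i

/-- Its denominators. -/
def boxDen (q : Fin 3 → ℤ) : Fin 3 → E := fun i => .k (q i)

/-- The substitution of a half line in the first variable and a box in the others. -/
def tailNum (a b : Fin 3 → ℤ) : Fin 3 → E := ![.k 2, affNum (a 1) (b 1) 1, affNum (a 2) (b 2) 2]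

/-- Its denominators. -/
def tailDen (q : Fin 3 → ℤ) : Fin 3 → E := ![.x 0, .k (q 1), .k (q 2)]

/-- Nonnegativity on a box. -/
theorem nonneg_box {a b q : Fin 3 → ℤ} {p : E} (hc : check (homSub (boxNum a b) (boxDen q) p) = true)
    (hb : ∀ i, 0 < b i) (hq : ∀ i, 0 < q i) {w : Fin 3 → ℝ}
    (hw : ∀ i, (a i : ℝ) ≤ w i * q i ∧ w i * q i ≤ a i + b i) : 0 ≤ sem w p := by
  have hb' : ∀ i, (0 : ℝ) < b i := fun i => by exact_mod_cast hb i
  have hq' : ∀ i, (0 : ℝ) < q i := fun i => by exact_mod_cast hq i
  refine sem_nonneg_of_homSub hc (v := fun i => (w i * q i - a i) / b i) (fun i => ?_)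
    (fun i => by simpa [boxDen, sem] using hq' i) fun i => ?_
  · rw [Set.mem_Icc, le_div_iff₀ (hb' i), div_le_one (hb' i)]
    constructor <;> linarith [(hw i).1, (hw i).2]
  · simp only [boxNum, affNum, boxDen, sem]
    rw [mul_div_cancel₀ _ (hb' i).ne']
    ring

/-- Nonnegativity on a half line times a box. -/
theorem nonneg_tail {a b q : Fin 3 → ℤ} {p : E}
    (hc : check (homSub (tailNum a b) (tailDen q) p) = true)
    (hb : ∀ i, 0 < b i) (hq : ∀ i, 0 < q i) {w : Fin 3 → ℝ} (h2 : 2 ≤ w 0)
    (hw : ∀ i, i ≠ 0 → (a i : ℝ) ≤ w i * q i ∧ w i * q i ≤ a i + b i) : 0 ≤ sem w p := by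
  have hb' : ∀ i, (0 : ℝ) < b i := fun i => by exact_mod_cast hb i
  have hq' : ∀ i, (0 : ℝ) < q i := fun i => by exact_mod_cast hq i
  have hw1 := hw 1 (by decide)
  have hw2 := hw 2 (by decide)
  refine sem_nonneg_of_homSub hc
    (v := ![2 / w 0, (w 1 * q 1 - a 1) / b 1, (w 2 * q 2 - a 2) / b 2]) (fun i => ?_)
    (fun i => ?_) fun i => ?_
  · fin_cases i
    · simp only [Fin.zero_eta, Matrix.cons_val_zero, Set.mem_Icc]
      exact ⟨div_nonneg zero_le_two (by linarith), (div_le_one (by linarith)).2 h2⟩
    · simp only [Fin.mk_one, Matrix.cons_val_one, Matrix.cons_val_zero, Set.mem_Icc]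
      rw [le_div_iff₀ (hb' 1), div_le_one (hb' 1)]
      constructor <;> linarith [hw1.1, hw1.2]
    · simp only [Fin.reduceFinMk, Matrix.cons_val, Set.mem_Icc]
      rw [le_div_iff₀ (hb' 2), div_le_one (hb' 2)]
      constructor <;> linarith [hw2.1, hw2.2]
  · fin_cases i
    · simp [tailDen, sem]
      linarith
    · simpa [tailDen, sem] using hq' 1
    · simpa [tailDen, sem] using hq' 2
  · fin_cases i
    · have : w 0 ≠ 0 := by linarith
      simp [tailNum, tailDen, sem]
      field_simp
    · simp [tailNum, tailDen, affNum, sem]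
      rw [mul_div_cancel₀ _ (hb' 1).ne']
      ring
    · simp [tailNum, tailDen, affNum, sem]
      rw [mul_div_cancel₀ _ (hb' 2).ne']
      ring

end Vale.Agent.P219.Poly.E
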